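import Vale.Agent.P273.H793.LfC
import Vale.Agent.P273.H810.Dict
import Vale.Agent.P273.H182.DomF

/-!
# P273: `LimFib`

The values of `PhiF` on two base vectors for long necks are the sums over the regions, the eliminated
gaps and the near or far core marks of the integrals in the charts of the regions.
-/

set_option linter.unusedSectionVars false

noncomputable section

namespace Vale.Agent.P273.H793

open Set Filter MeasureTheory H95 H732 H562 H573
open Vale.P273.H887 (Qf ρ cf shSet)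
open Vale.Agent.P273.H681 (C6 XX)
open Vale.Agent.P273.H852 (fden finv sheetMeas)
open Vale.Agent.P273.H811 (nd')
open scoped Topology ContDiff

/-! ### evaluation -/

/-- the value of a form on fixed vectors -/
def evA {V : Type} [NormedAddCommGroup V] [NormedSpace ℝ V] {n : ℕ} (w : Fin n → V) :
    (V [⋀^Fin n]→L[ℝ] ℝ) →L[ℝ] ℝ :=
  (ContinuousMultilinearMap.apply ℝ (fun _ : Fin n => V) ℝ w).comp
    (ContinuousAlternatingMap.toContinuousMultilinearMapCLM ℝ)

theorem evA_apply {V : Type} [NormedAddCommGroup V] [NormedSpace ℝ V] {n : ℕ} (w : Fin n → V)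
    (f : V [⋀^Fin n]→L[ℝ] ℝ) : evA w f = f w := rfl

theorem exists_pair {V : Type} (a b : V) : ∃ A : Fin 2 → V, A 0 = a ∧ A 1 = b :=
  ⟨![a, b], rfl, rfl⟩

section Co852

variable (R : H852.Reg L (Fin 3))

/-! ### the necks data -/

theorem pos_nd' (y a : Fin 3 → ℝ) (τ : R.Gap → ℂ) {z : R.Kc → ℂ} (hz : ∀ c k, z c ≠ ctr k) :
    R.pos (nd' y a) τ z = R.pos (nd y a) τ z := by
  funext j
  rcases h : R.A j with k | b
  · rw [pos852_neck R _ _ _ h, pos852_neck R _ _ _ h]
    rfl
  · rw [pos852_core R _ _ _ h, pos852_core R _ _ _ h, H811.nd'_s_eq _ _ (hz _)]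

theorem fpos_nd' (y a : Fin 3 → ℝ) (far : R.Kc → Bool) {q : Cd R}
    (hq : ∀ c k, finv far q.2 c ≠ ctr k) :
    R.fpos (nd' y a) far q = R.fpos (nd y a) far q :=
  pos_nd' R y a _ hq

theorem fjac_nd' (y a : Fin 3 → ℝ) (far : R.Kc → Bool) (q : Cd R) :
    R.fjac (nd' y a) far q = R.fjac (nd y a) far q := rfl

/-- the marks are not at the centres -/
theorem finv_ne {far : R.Kc → Bool} {y α : Fin 3 → ℝ} (hy : ∀ k, 64 ≤ y k)
    {x : Fb (to95 R) (m95 R)}
    (hx : ∀ c, x.2 c ∈ H573.zone y α (far ((kcE R).symm c))) (c : R.Kc) (k : Fin 3) :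
    finv far (H810.cd R x).2 c ≠ ctr k := by
  have h := hx (kcE R c)
  rw [Equiv.symm_apply_apply] at h
  have h1 : (H810.cd R x).2 c = x.2 (kcE R c) := rfl
  have h2 := H811.norm_ctr_le k
  rw [finv_eq]
  change H883.xof (far c) ((H810.cd R x).2 c) ≠ ctr k
  rw [h1]
  rcases hf : far c with _ | _
  · rw [hf] at h
    intro h3
    have h4 := H182.core_zone hy h.2 k
    have h5 : x.2 (kcE R c) = ctr k := h3
    rw [h5, sub_self, norm_zero] at h4
    norm_num at h4
  · rw [hf] at h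
    intro h3
    obtain ⟨h4, h5⟩ := h
    have h6 : (x.2 (kcE R c))⁻¹ = ctr k := h3
    have h7 : 0 < ‖x.2 (kcE R c)‖ := norm_pos_iff.2 h4
    have h8 : 11 < ‖ctr k‖ := by
      rw [← h6, norm_inv, ← one_div, lt_div_iff₀ h7]
      rw [lt_div_iff₀ (by norm_num)] at h5
      linarith
    linarith

theorem Sfar_Sx (far : R.Kc → Bool) :
    Sx (to95 R) (fun c => far ((kcE R).symm c)) = Sfar R far := by
  funext j
  rcases h : R.A j with k | b
  · rw [Sfar_neck R far h, Sx, dif_neg]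
    change ¬ (R.A j).isRight = true
    rw [h]
    exact Bool.false_ne_true
  · rw [Sfar_core R far h, Sx, dif_pos]
    · rfl
    · change (R.A j).isRight = true
      rw [h]
      rfl

/-- **the pointwise identity on the domain** -/
theorem point_dom' (X : Ext) (Θ : Gauge) {T : MT} (hT : SymT T) (far : R.Kc → Bool)
    {y α : Fin 3 → ℝ} (hy : ∀ k, 64 ≤ y k) (hα : ∀ k, -7 ≤ α k ∧ α k ≤ 1)
    {x : Fb (to95 R) (m95 R)}
    (hx : x ∈ domF (to95 R) (m95 R) (fun c => far ((kcE R).symm c)) y α)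
    (A : Fin 2 → Bs3 × Cd R) {q : Bs3 × Cd R} (hq1 : q.1 = (y, α)) (hq2 : q.2 = H810.cd R x) :
    OmR (to95 R) (m95 R) X Θ T (Sfar R far) (coL R q)
      (fr30 (to95 R) (m95 R) (coL R (A 0)) (coL R (A 1))) =
    R.fjac (nd' y α) far (H810.cd R x) *
      fv (Qg X Θ T) (rootsL y α) (R.fpos (nd' y α) far (H810.cd R x))
        (fun k => fderiv ℝ rtp (y, α) (A k).1) := by
  obtain ⟨h1, h2⟩ := H182.inr_mk (to95 R) (m95 R) hx hy
  have hq : q = ((y, α), H810.cd R x) := Prod.ext hq1 hq2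
  have h3 : coL R q = H573.mk (to95 R) (m95 R) y α x := by
    rw [hq]
    exact H810.coE_cd R y α x
  have hy0 : ∀ k, 0 ≤ y k := fun k => by linarith [hy k]
  have hU := H182.emb_mem_D1 h1 hy h2
  have hS := farOk_Sfar R far
  rw [Sfar_Sx] at hU h2
  rw [fpos_nd' R y α far (finv_ne R hy hx.2.2), fjac_nd']
  have hX : (posE (to95 R) (m95 R) (coL R q)).1 ∈ XX := by
    rw [h3]
    exact H182.rootsL_mem hy0 hα
  have hz : ∀ c, far c = true → q.2.2 c ≠ 0 := by
    intro c hc
    rw [hq2]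
    have h5 := hx.2.2 (kcE R c)
    simp only [Equiv.symm_apply_apply] at h5
    rw [hc] at h5
    exact h5.1
  have hv : shE (to95 R) (m95 R) (Sfar R far) (coL R q) ∈
      shSet (cf (Sfar R far) (posE (to95 R) (m95 R) (coL R q))) := by
    rw [h3]
    intro j
    have h4 := H375.sht_sq (to95 R) hS j hU
    rw [← H182.rts_rootsL] at h4
    exact h4
  have hU' : emb (to95 R) (m95 R) (coL R q) ∈ H975.U0 (to95 R) (Sfar R far) := by
    rw [h3]
    exact hU
  have hp := point_eq R X Θ hT far (x := q) hX hz hU' hv A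
  have e1 : Dth (y, α) = nd y α := rfl
  have e2 : rtp (y, α) = rootsL y α := rfl
  rw [hp, hq1, hq2, e1, e2]

theorem point_dom (X : Ext) (Θ : Gauge) {T : MT} (hT : SymT T) (far : R.Kc → Bool)
    {y α : Fin 3 → ℝ} (hy : ∀ k, 64 ≤ y k) (hα : ∀ k, -7 ≤ α k ∧ α k ≤ 1)
    {x : Fb (to95 R) (m95 R)}
    (hx : x ∈ domF (to95 R) (m95 R) (fun c => far ((kcE R).symm c)) y α)
    (a b : Bs3) (va vb : Co (to95 R) (m95 R)) (ha : va.2.2.1 = a.1 ∧ va.2.2.2.1 = a.2)
    (hb : vb.2.2.1 = b.1 ∧ vb.2.2.2.1 = b.2) :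
    R.fjac (nd' y α) far (H810.cd R x) *
        evA ![fderiv ℝ rtp (y, α) a, fderiv ℝ rtp (y, α) b]
          (fv (Qg X Θ T) (rootsL y α) (R.fpos (nd' y α) far (H810.cd R x))) =
      OmR (to95 R) (m95 R) X Θ T (Sx (to95 R) (fun c => far ((kcE R).symm c)))
        (H573.mk (to95 R) (m95 R) y α x) (fr30 (to95 R) (m95 R) va vb) := by
  have hA : coL R (a, coR R va) = va := by
    have h6 : a = (va.2.2.1, va.2.2.2.1) := by rw [ha.1, ha.2]
    rw [h6]
    exact coL_coR R va
  have hB : coL R (b, coR R vb) = vb := by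
    have h6 : b = (vb.2.2.1, vb.2.2.2.1) := by rw [hb.1, hb.2]
    rw [h6]
    exact coL_coR R vb
  have h3 : coL R ((y, α), H810.cd R x) = H573.mk (to95 R) (m95 R) y α x := H810.coE_cd R y α x
  obtain ⟨A, hA0, hA1⟩ := exists_pair (a, coR R va) (b, coR R vb)
  rw [← hA0] at hA
  rw [← hA1] at hB
  have hw : (fun k => fderiv ℝ rtp (y, α) (A k).1) =
      ![fderiv ℝ rtp (y, α) a, fderiv ℝ rtp (y, α) b] := by
    funext k
    fin_cases k
    · exact congrArg (fun c : Bs3 × Cd R => fderiv ℝ rtp (y, α) c.1) hA0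
    · exact congrArg (fun c : Bs3 × Cd R => fderiv ℝ rtp (y, α) c.1) hA1
  rw [evA_apply, Sfar_Sx, ← h3, ← hA, ← hB, ← hw]
  exact (point_dom' R X Θ hT far hy hα hx A rfl rfl).symm

/-- the domain is measurable -/
theorem measurableSet_domF (far : R.Kc → Bool) (y α : Fin 3 → ℝ) :
    MeasurableSet (domF (to95 R) (m95 R) (fun c => far ((kcE R).symm c)) y α) := by
  rw [← H810.cd_preimage]
  exact (H810.cd R).measurable
    (((H852.measurableSet_sdom (J := fun k => {j // R.A j = Sum.inl k}) (nd' y α).Y).prod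
      (H852.measurableSet_angBox _)).prod
      (MeasurableSet.univ_pi fun c => H852.Necks.measurableSet_zone _ _ _))

end Co852

theorem integrable_ev {Q : (L → Bool) → E → (L → ℂ) → F30} (hQ : GoodQ Q) {b : C6} (hb : b ∈ XX)
    (w : Fin 2 → C6) : Integrable (fun p => evA w (fv Q b p)) (muC b) :=
  (evA w).integrable_comp (integrable_fv hQ hb)

/-- **(S1)** -/
theorem limFib (X : Ext) (Θ : Gauge) : LimFib X Θ := by
  refine ⟨64, fun T hT y α hy hα a b va vb ha hb => ?_⟩
  have hy0 : ∀ k, 0 ≤ y k := fun k => by linarith [hy k]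
  have hy1 : ∀ k, 0 < y k := fun k => by linarith [hy k]
  have hX : rootsL y α ∈ XX := H182.rootsL_mem hy0 hα
  have hmu : Measure.pi (fun _ : L => sheetMeas (nd' y α).s volume) = muC (rootsL y α) := by
    refine muC_eq (H811.measurable_nd'_s y α) (Eventually.of_forall fun x => ?_)
    rw [H811.nd'_s_sq, H182.rts_rootsL']
    congr 2
    funext k
    exact H810.nd_eps y α k
  have h1 : PhiF X Θ T (rootsL y α) ![fderiv ℝ rtp (y, α) a, fderiv ℝ rtp (y, α) b] =
      ∫ p, evA ![fderiv ℝ rtp (y, α) a, fderiv ℝ rtp (y, α) b] (fv (Qg X Θ T) (rootsL y α) p)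
        ∂(Measure.pi fun _ : L => sheetMeas (nd' y α).s volume) := by
    rw [hmu, (evA _).integral_comp_comm (integrable_fv (goodQg X Θ hT) hX), evA_apply,
      phiF_eq_curve X Θ hT hX]
  rw [h1, H810.region_sum_of hy1 (by rw [hmu]; exact integrable_ev (goodQg X Θ hT) hX _)
    (fun R m far x => OmR R m X Θ T (Sx R far) (H573.mk R m y α x)
      (fr30 R m (va R m (H573.mk R m y α x)) (vb R m (H573.mk R m y α x)))) ?_]
  · rfl
  · intro R far
    refine (ae_restrict_iff' (measurableSet_domF R far y α)).2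
      (Eventually.of_forall fun x hx => ?_)
    exact point_dom R X Θ hT far hy hα hx a b _ _ (ha _ _ _) (hb _ _ _)

end Vale.Agent.P273.H793
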