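import Mathlib

/-!
# P273, LIM-R4: change of vertical frames

`e j : ℂ →ₗ[ℝ] E` is the complex vertical direction of the point `j` (`e j 1 = ∂/∂ Re x_j`,
`e j I = ∂/∂ Im x_j`).  A complex linear change of vertical coordinates with matrix `A` multiplies the
value of an alternating form on (base vectors, vertical frame) by `|det A|²`, and vertical corrections
of the base vectors do not change it.
-/

set_option linter.unusedSectionVars false
set_option linter.unusedSimpArgs false

noncomputable section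

namespace Vale.Agent.P273.H793

/-- the real frame `1, I` of `ℂ` -/
def cI (c : Fin 2) : ℂ := if c = 0 then 1 else Complex.I

@[simp] theorem cI_zero : cI 0 = 1 := by simp [cI]
@[simp] theorem cI_one : cI 1 = Complex.I := by simp [cI]

/-! ## Alternating maps of top degree -/

section top

variable {M W I : Type*} [AddCommGroup M] [Module ℝ M] [AddCommGroup W] [Module ℝ W]
variable [Fintype I] [DecidableEq I]

/-- an alternating map of top degree is a multiple of the determinant -/
theorem top_eq (B : Module.Basis I ℝ M) (f : M [⋀^I]→ₗ[ℝ] W) (v : I → M) :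
    f v = B.det v • f B := by
  have h : f = (LinearMap.toSpanSingleton ℝ W (f B)).compAlternatingMap B.det := by
    refine Module.Basis.ext_alternating B fun s hs => ?_
    have hb : Function.Bijective s := Finite.injective_iff_bijective.1 hs
    have hσ : (fun i => B (s i)) = (⇑B) ∘ ⇑(Equiv.ofBijective s hb) := rfl
    rw [hσ, AlternatingMap.map_perm]
    simp only [LinearMap.compAlternatingMap_apply, AlternatingMap.map_perm, LinearMap.toSpanSingleton_apply,
      Module.Basis.det_self]
    rcases Int.units_eq_one_or (Equiv.Perm.sign (Equiv.ofBijective s hb)) with h1 | h1 <;> simp [h1]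
  conv_lhs => rw [h]
  simp

/-- a real linear map acts by its determinant -/
theorem top_comp (B : Module.Basis I ℝ M) (f : M [⋀^I]→ₗ[ℝ] W) (T : M →ₗ[ℝ] M) (v : I → M) :
    f (fun i => T (v i)) = LinearMap.det T • f v := by
  rw [top_eq B f, top_eq B f v]
  have : (fun i => T (v i)) = ⇑T ∘ v := rfl
  rw [this, Module.Basis.det_comp, mul_smul]

end top

/-! ## The real basis of `ι → ℂ` -/

section basis

variable (ι : Type*) [Fintype ι] [DecidableEq ι]

/-- the real basis of `ι → ℂ` -/
def rb : Module.Basis (ι × Fin 2) ℝ (ι → ℂ) :=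
  (Pi.basis fun _ : ι => Complex.basisOneI).reindex (Equiv.sigmaEquivProd ι (Fin 2))

theorem rb_apply (j : ι) (c : Fin 2) : rb ι (j, c) = Pi.single j (cI c) := by
  have hc : Complex.basisOneI c = cI c := by
    fin_cases c <;> simp [cI, Complex.coe_basisOneI]
  rw [rb, Module.Basis.reindex_apply, Pi.basis_apply]
  simp [hc]

/-- the determinant of a complex linear map as a real linear map -/
theorem det_real (T : (ι → ℂ) →ₗ[ℂ] (ι → ℂ)) :
    LinearMap.det (T.restrictScalars ℝ) = ‖LinearMap.det T‖ ^ 2 := by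
  rw [LinearMap.det_restrictScalars, Algebra.norm_complex_apply, Complex.normSq_eq_norm_sq]

theorem det_real_matrix (A : Matrix ι ι ℂ) :
    LinearMap.det ((Matrix.toLin' A).restrictScalars ℝ) = ‖A.det‖ ^ 2 := by
  rw [det_real, LinearMap.det_toLin']

end basis

/-! ## Frames -/

section frames

variable {E W κ ι : Type*} [AddCommGroup E] [Module ℝ E] [AddCommGroup W] [Module ℝ W]
variable [Fintype ι] [DecidableEq ι] [DecidableEq κ]

/-- the sum of the vertical directions -/
def vert (e : ι → ℂ →ₗ[ℝ] E) : (ι → ℂ) →ₗ[ℝ] E := ∑ j, (e j).comp (LinearMap.proj j)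

theorem vert_apply (e : ι → ℂ →ₗ[ℝ] E) (x : ι → ℂ) : vert e x = ∑ j, e j (x j) := by
  simp [vert]

theorem vert_single (e : ι → ℂ →ₗ[ℝ] E) (j : ι) (z : ℂ) : vert e (Pi.single j z) = e j z := by
  rw [vert_apply, Finset.sum_eq_single j]
  · simp
  · intro k _ hk; simp [Pi.single_eq_of_ne hk]
  · intro h; exact absurd (Finset.mem_univ j) h

/-- the vertical frame of `e` -/
def fr (e : ι → ℂ →ₗ[ℝ] E) (q : ι × Fin 2) : E := e q.1 (cI q.2)

theorem fr_eq (e : ι → ℂ →ₗ[ℝ] E) (q : ι × Fin 2) : fr e q = vert e (rb ι q) := by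
  obtain ⟨j, c⟩ := q
  rw [rb_apply, vert_single, fr]

/-- the vertical directions of new coordinates `w`, `∂ x_j / ∂ w_i = A i j` -/
def chg (A : Matrix ι ι ℂ) (e : ι → ℂ →ₗ[ℝ] E) (i : ι) : ℂ →ₗ[ℝ] E :=
  ∑ j, (e j).comp (LinearMap.mulLeft ℝ (A i j))

theorem chg_apply (A : Matrix ι ι ℂ) (e : ι → ℂ →ₗ[ℝ] E) (i : ι) (z : ℂ) :
    chg A e i z = ∑ j, e j (A i j * z) := by
  simp [chg]

theorem fr_chg (A : Matrix ι ι ℂ) (e : ι → ℂ →ₗ[ℝ] E) (q : ι × Fin 2) :
    fr (chg A e) q = vert e (((Matrix.toLin' A.transpose).restrictScalars ℝ) (rb ι q)) := by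
  obtain ⟨i, c⟩ := q
  rw [fr, chg_apply, rb_apply, vert_apply]
  refine Finset.sum_congr rfl fun j _ => ?_
  congr 1
  simp [Matrix.toLin'_apply, Matrix.mulVec_single, Matrix.col_apply]

/-- fix the base vectors, feed vertical vectors -/
def slot (Θ : E [⋀^(κ ⊕ ι × Fin 2)]→ₗ[ℝ] W) (b : κ → E) (T : (ι → ℂ) →ₗ[ℝ] E) :
    (ι → ℂ) [⋀^(ι × Fin 2)]→ₗ[ℝ] W where
  toFun v := Θ (Sum.elim b fun i => T (v i))
  map_update_add' := by
    intro _ v i x y
    have key : ∀ z : ι → ℂ, (Sum.elim b fun k => T (Function.update v i z k))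
        = Function.update (Sum.elim b fun k => T (v k)) (Sum.inr i) (T z) := by
      intro z
      funext s
      rcases s with s | s
      · simp
      · by_cases h : s = i
        · subst h; simp
        · have h' : (Sum.inr s : κ ⊕ ι × Fin 2) ≠ Sum.inr i := fun h'' => h (Sum.inr.inj h'')
          simp [Function.update_of_ne h, Function.update_of_ne h']
    rw [key, key, key, map_add]
    exact Θ.map_update_add _ _ _ _
  map_update_smul' := by
    intro _ v i c x
    have key : ∀ z : ι → ℂ, (Sum.elim b fun k => T (Function.update v i z k))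
        = Function.update (Sum.elim b fun k => T (v k)) (Sum.inr i) (T z) := by
      intro z
      funext s
      rcases s with s | s
      · simp
      · by_cases h : s = i
        · subst h; simp
        · have h' : (Sum.inr s : κ ⊕ ι × Fin 2) ≠ Sum.inr i := fun h'' => h (Sum.inr.inj h'')
          simp [Function.update_of_ne h, Function.update_of_ne h']
    rw [key, key, map_smul]
    exact Θ.map_update_smul _ _ _ _
  map_eq_zero_of_eq' := by
    intro v i j h hij
    exact Θ.map_eq_zero_of_eq _ (by simp [h]) (fun h' => hij (Sum.inr.inj h'))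

theorem slot_apply (Θ : E [⋀^(κ ⊕ ι × Fin 2)]→ₗ[ℝ] W) (b : κ → E) (T : (ι → ℂ) →ₗ[ℝ] E)
    (v : ι × Fin 2 → ι → ℂ) : slot Θ b T v = Θ (Sum.elim b fun i => T (v i)) := rfl

/-- **vertical change**: a complex linear change of the vertical coordinates -/
theorem vertical_change (Θ : E [⋀^(κ ⊕ ι × Fin 2)]→ₗ[ℝ] W) (b : κ → E) (e : ι → ℂ →ₗ[ℝ] E)
    (A : Matrix ι ι ℂ) :
    Θ (Sum.elim b (fr (chg A e))) = ‖A.det‖ ^ 2 • Θ (Sum.elim b (fr e)) := by
  have h1 : fr (chg A e) = fun q => vert e
      (((Matrix.toLin' A.transpose).restrictScalars ℝ) (rb ι q)) := funext (fr_chg A e)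
  have h2 : fr e = fun q => vert e (rb ι q) := funext (fr_eq e)
  rw [h1, h2, ← slot_apply Θ b (vert e), ← slot_apply Θ b (vert e)]
  have := top_comp (rb ι) (slot Θ b (vert e))
    ((Matrix.toLin' A.transpose).restrictScalars ℝ) (rb ι)
  rw [this, det_real_matrix, Matrix.det_transpose]

/-- the same with the frames written by real linear maps -/
theorem vertical_change_real (Θ : E [⋀^(κ ⊕ ι × Fin 2)]→ₗ[ℝ] W) (b : κ → E) (e : ι → ℂ →ₗ[ℝ] E)
    (T : (ι → ℂ) →ₗ[ℝ] (ι → ℂ)) :
    Θ (Sum.elim b fun q => vert e (T (rb ι q))) = LinearMap.det T • Θ (Sum.elim b (fr e)) := by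
  have h2 : fr e = fun q => vert e (rb ι q) := funext (fr_eq e)
  rw [h2, ← slot_apply Θ b (vert e)]
  exact top_comp (rb ι) (slot Θ b (vert e)) T (rb ι)

end frames

/-! ## Vertical corrections of the base vectors -/

section base

variable {E W κ J : Type*} [AddCommGroup E] [Module ℝ E] [AddCommGroup W] [Module ℝ W]
variable [Fintype κ] [DecidableEq κ] [Fintype J] [DecidableEq J]

/-- adding a combination of the last vectors to one of the first ones -/
theorem corr_one (Θ : E [⋀^(κ ⊕ J)]→ₗ[ℝ] W) (b : κ → E) (f : J → E) (k : κ) (x : J → ℝ) :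
    Θ (Sum.elim (Function.update b k (b k + ∑ j, x j • f j)) f) = Θ (Sum.elim b f) := by
  have h0 : ∀ z : E, (Sum.elim (Function.update b k z) f)
      = Function.update (Sum.elim b f) (Sum.inl k) z := by
    intro z; exact (Sum.update_elim_inl).symm
  rw [h0, Θ.map_update_add, Θ.map_update_sum]
  have h1 : Function.update (Sum.elim b f) (Sum.inl k) (b k) = Sum.elim b f := by
    have : b k = Sum.elim b f (Sum.inl k) := rfl
    rw [this, Function.update_eq_self]
  rw [h1]
  have h2 : ∑ j, Θ (Function.update (Sum.elim b f) (Sum.inl k) (x j • f j)) = 0 := by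
    refine Finset.sum_eq_zero fun j _ => ?_
    rw [Θ.map_update_smul]
    have : f j = Sum.elim b f (Sum.inr j) := rfl
    rw [this, Θ.map_update_self _ (by simp), smul_zero]
  rw [h2, add_zero]

/-- **base change**: vertical corrections of the base vectors do not matter -/
theorem corr (Θ : E [⋀^(κ ⊕ J)]→ₗ[ℝ] W) (b b' : κ → E) (f : J → E) (x : κ → J → ℝ)
    (h : ∀ k, b' k = b k + ∑ j, x k j • f j) :
    Θ (Sum.elim b' f) = Θ (Sum.elim b f) := by
  suffices H : ∀ s : Finset κ, Θ (Sum.elim (fun k => if k ∈ s then b' k else b k) f)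
      = Θ (Sum.elim b f) by
    have := H Finset.univ
    simpa using this
  intro s
  induction s using Finset.induction_on with
  | empty => simp
  | insert a s ha ih =>
    rw [← ih, ← corr_one Θ (fun k => if k ∈ s then b' k else b k) f a (x a)]
    congr 1
    congr 1
    funext k
    by_cases hk : k = a
    · subst hk
      simp [ha, h]
    · rw [Function.update_of_ne hk]
      simp [hk]

end base

/-! ## The main frame identity -/

section main

variable {E W κ ι J : Type*} [AddCommGroup E] [Module ℝ E] [AddCommGroup W] [Module ℝ W]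
variable [Fintype ι] [DecidableEq ι] [Fintype κ] [DecidableEq κ]

/-- a vertical vector is a real combination of the vertical frame -/
theorem vert_eq_sum (e : ι → ℂ →ₗ[ℝ] E) (x : ι → ℂ) :
    vert e x = ∑ q : ι × Fin 2, (if q.2 = 0 then (x q.1).re else (x q.1).im) • fr e q := by
  rw [Fintype.sum_prod_type, vert_apply]
  refine Finset.sum_congr rfl fun j _ => ?_
  simp only [Fin.sum_univ_two, fr, cI_zero, cI_one, Fin.isValue, if_true, one_ne_zero, if_false]
  rw [← map_smul, ← map_smul, ← map_add]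
  congr 1
  apply Complex.ext <;> simp

/-- **vertical corrections of the base vectors** -/
theorem corr_vert (Θ : E [⋀^(κ ⊕ ι × Fin 2)]→ₗ[ℝ] W) (e : ι → ℂ →ₗ[ℝ] E) (b b' : κ → E)
    (x : κ → ι → ℂ) (h : ∀ k, b' k = b k + vert e (x k)) :
    Θ (Sum.elim b' (fr e)) = Θ (Sum.elim b (fr e)) :=
  corr Θ b b' (fr e) (fun k q => if q.2 = 0 then (x k q.1).re else (x k q.1).im) fun k => by
    rw [h, vert_eq_sum]

/-- **the frame identity**: new vertical coordinates with complex Jacobian matrix `A` and base vectors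
changed by vertical vectors -/
theorem frame_sum (Θ : E [⋀^(κ ⊕ ι × Fin 2)]→ₗ[ℝ] W) (e : ι → ℂ →ₗ[ℝ] E) (A : Matrix ι ι ℂ)
    (b b' : κ → E) (x : κ → ι → ℂ) (h : ∀ k, b' k = b k + vert e (x k)) :
    Θ (Sum.elim b' (fr (chg A e))) = ‖A.det‖ ^ 2 • Θ (Sum.elim b (fr e)) := by
  rw [vertical_change, corr_vert Θ e b b' x h]

/-- the frame identity for any order of the arguments -/
theorem frame_eq (σ : κ ⊕ ι × Fin 2 ≃ J) (Θ : E [⋀^J]→ₗ[ℝ] W) (e : ι → ℂ →ₗ[ℝ] E)
    (A : Matrix ι ι ℂ) (b b' : κ → E) (x : κ → ι → ℂ) (h : ∀ k, b' k = b k + vert e (x k)) :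
    Θ (Sum.elim b' (fr (chg A e)) ∘ σ.symm) = ‖A.det‖ ^ 2 • Θ (Sum.elim b (fr e) ∘ σ.symm) := by
  have := frame_sum (Θ.domDomCongr σ.symm) e A b b' x h
  simpa [AlternatingMap.domDomCongr_apply] using this

/-! ### Signs: the frame `∂/∂u, ∂/∂φ` of `w = -u + i φ` -/

/-- the frame `∂_u, ∂_φ` at the indices in `S`, `∂_Re, ∂_Im` at the others -/
def fru (S : Finset ι) (e : ι → ℂ →ₗ[ℝ] E) (q : ι × Fin 2) : E :=
  e q.1 (if q.1 ∈ S ∧ q.2 = 0 then -1 else cI q.2)

/-- the real linear map `z ↦ - conj z` at the indices of `S` -/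
def refl (S : Finset ι) : (ι → ℂ) →ₗ[ℝ] (ι → ℂ) where
  toFun z i := if i ∈ S then -(starRingEnd ℂ) (z i) else z i
  map_add' z w := by
    funext i; by_cases h : i ∈ S <;> simp [h]; ring
  map_smul' c z := by
    funext i; by_cases h : i ∈ S <;> simp [h]

theorem refl_apply (S : Finset ι) (z : ι → ℂ) (i : ι) :
    refl S z i = if i ∈ S then -(starRingEnd ℂ) (z i) else z i := rfl

theorem refl_rb (S : Finset ι) (q : ι × Fin 2) :
    refl S (rb ι q) = (if q.1 ∈ S ∧ q.2 = 0 then (-1 : ℝ) else 1) • rb ι q := by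
  obtain ⟨j, c⟩ := q
  rw [rb_apply]
  funext i
  rw [refl_apply]
  by_cases hi : i = j
  · subst hi
    fin_cases c
    · by_cases h : i ∈ S <;> simp [h]
    · by_cases h : i ∈ S <;> simp [h]
  · simp [Pi.single_eq_of_ne hi]

theorem det_refl (S : Finset ι) : LinearMap.det (refl S) = (-1 : ℝ) ^ S.card := by
  rw [← LinearMap.det_toMatrix (rb ι)]
  have : LinearMap.toMatrix (rb ι) (rb ι) (refl S)
      = Matrix.diagonal fun q : ι × Fin 2 => if q.1 ∈ S ∧ q.2 = 0 then (-1 : ℝ) else 1 := by
    ext p q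
    rw [LinearMap.toMatrix_apply, refl_rb, map_smul, Module.Basis.repr_self]
    by_cases hpq : p = q
    · subst hpq
      by_cases h : p.1 ∈ S ∧ p.2 = 0
      · simp [h]
      · simp [h]
    · rw [Matrix.diagonal_apply_ne _ hpq]
      have h0 : (Finsupp.single q (1 : ℝ)) p = 0 := Finsupp.single_eq_of_ne hpq
      rw [Finsupp.smul_apply, h0, smul_zero]
  rw [this, Matrix.det_diagonal, Fintype.prod_prod_type]
  have h2 : ∀ j : ι, (∏ c : Fin 2, (if (j, c).1 ∈ S ∧ (j, c).2 = 0 then (-1 : ℝ) else 1))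
      = if j ∈ S then -1 else 1 := by
    intro j; simp [Fin.prod_univ_two]
  rw [Finset.prod_congr rfl fun j _ => h2 j, Finset.prod_ite]
  simp

theorem fru_eq (S : Finset ι) (e : ι → ℂ →ₗ[ℝ] E) (q : ι × Fin 2) :
    fru S e q = vert e (refl S (rb ι q)) := by
  rw [refl_rb, map_smul, ← fr_eq, fru, fr]
  obtain ⟨j, c⟩ := q
  by_cases h : j ∈ S ∧ c = 0
  · simp only [h, and_self, if_true]
    rw [show (-1 : ℂ) = (-1 : ℝ) • cI 0 by simp, map_smul]
  · simp only [h, if_false, one_smul]

/-- **log-polar frame identity** -/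
theorem frame_sum_polar (Θ : E [⋀^(κ ⊕ ι × Fin 2)]→ₗ[ℝ] W) (e : ι → ℂ →ₗ[ℝ] E)
    (A : Matrix ι ι ℂ) (S : Finset ι) (b b' : κ → E) (x : κ → ι → ℂ)
    (h : ∀ k, b' k = b k + vert e (x k)) :
    Θ (Sum.elim b' (fru S (chg A e)))
      = ((-1 : ℝ) ^ S.card * ‖A.det‖ ^ 2) • Θ (Sum.elim b (fr e)) := by
  have h1 : fru S (chg A e) = fun q => vert (chg A e) (refl S (rb ι q)) :=
    funext (fru_eq S (chg A e))
  rw [h1, vertical_change_real Θ b' (chg A e) (refl S), det_refl, frame_sum Θ e A b b' x h, smul_smul]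

theorem frame_eq_polar (σ : κ ⊕ ι × Fin 2 ≃ J) (Θ : E [⋀^J]→ₗ[ℝ] W) (e : ι → ℂ →ₗ[ℝ] E)
    (A : Matrix ι ι ℂ) (S : Finset ι) (b b' : κ → E) (x : κ → ι → ℂ)
    (h : ∀ k, b' k = b k + vert e (x k)) :
    Θ (Sum.elim b' (fru S (chg A e)) ∘ σ.symm)
      = ((-1 : ℝ) ^ S.card * ‖A.det‖ ^ 2) • Θ (Sum.elim b (fr e) ∘ σ.symm) := by
  have := frame_sum_polar (Θ.domDomCongr σ.symm) e A S b b' x h
  simpa [AlternatingMap.domDomCongr_apply] using this

end main

/-! ## The Jacobian of a neck -/

section neck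

/-- a matrix which is triangular for a key -/
theorem det_key {I R : Type*} [Fintype I] [DecidableEq I] [CommRing R] (M : Matrix I I R)
    (key : I → ℕ) (h : ∀ a i, a ≠ i → key i ≤ key a → M a i = 0) : M.det = ∏ i, M i i := by
  rw [Matrix.det_apply, Finset.sum_eq_single 1]
  · simp
  · intro σ _ hσ
    by_contra hne
    have hM : ∀ i, M (σ i) i ≠ 0 := by
      intro i hi
      have h0 : (∏ i, M (σ i) i) = 0 := Finset.prod_eq_zero (Finset.mem_univ i) hi
      exact hne (by rw [h0, smul_zero])
    have hle : ∀ i, key (σ i) ≤ key i := by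
      intro i
      by_cases hi : σ i = i
      · rw [hi]
      · by_contra hlt
        exact hM i (h _ _ hi (not_le.1 hlt).le)
    have hsum : ∑ i, key (σ i) = ∑ i, key i := Equiv.sum_comp σ key
    have heq : ∀ i, key (σ i) = key i := by
      have := (Finset.sum_eq_sum_iff_of_le fun i _ => hle i).1 hsum
      exact fun i => this i (Finset.mem_univ i)
    refine hσ (Equiv.ext fun i => ?_)
    by_contra hi
    exact hM i (h _ _ hi (heq i).ge)
  · intro h1; exact absurd (Finset.mem_univ _) h1

/-- the derivative of the logarithm of the position of the mark of rank `i` with respect to the free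
gap number `a`, the gap number `m` being eliminated -/
def tco (m a i : ℕ) : ℂ := if i < m then (if a ≤ i then 1 else 0) else (if i ≤ a then -1 else 0)

theorem norm_tco_diag (m i : ℕ) : ‖tco m i i‖ = 1 := by
  unfold tco; split_ifs <;> simp at *

/-- sums of the first gaps in terms of the free gaps -/
theorem prefix_sum {n : ℕ} (m : Fin (n + 1)) (x : Fin (n + 1) → ℂ) (i : Fin n) :
    (∑ g : Fin (n + 1), if g.val ≤ i.val then x g else 0)
      = (if i.val < m.val then 0 else ∑ g, x g)
        + ∑ a : Fin n, tco m a i * x (m.succAbove a) := by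
  have hs : ∀ a : Fin n, (m.succAbove a).val = if a.val < m.val then a.val else a.val + 1 := by
    intro a
    simp only [Fin.succAbove, Fin.lt_def, Fin.val_castSucc]
    split_ifs <;> simp
  rw [Fin.sum_univ_succAbove (fun g => if g.val ≤ i.val then x g else 0) m,
    Fin.sum_univ_succAbove x m]
  by_cases him : i.val < m.val
  · rw [if_neg (by omega), if_pos him, zero_add, zero_add]
    refine Finset.sum_congr rfl fun a _ => ?_
    by_cases hai : a.val ≤ i.val
    · have h1 : (m.succAbove a).val ≤ i.val := by rw [hs, if_pos (by omega)]; exact hai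
      rw [if_pos h1, tco, if_pos him, if_pos hai, one_mul]
    · have h1 : ¬ (m.succAbove a).val ≤ i.val := by rw [hs]; split_ifs <;> omega
      rw [if_neg h1, tco, if_pos him, if_neg hai, zero_mul]
  · rw [if_pos (by omega), if_neg him, add_assoc]
    congr 1
    rw [← Finset.sum_add_distrib]
    refine Finset.sum_congr rfl fun a _ => ?_
    by_cases hai : i.val ≤ a.val
    · have h1 : ¬ (m.succAbove a).val ≤ i.val := by rw [hs]; split_ifs <;> omega
      rw [if_neg h1, tco, if_neg him, if_pos hai]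
      ring
    · have h1 : (m.succAbove a).val ≤ i.val := by rw [hs]; split_ifs <;> omega
      rw [if_pos h1, tco, if_neg him, if_neg hai]
      ring

variable {K C : Type*} [Fintype K] [DecidableEq K] [Fintype C] [DecidableEq C]
variable (n : K → ℕ) (m : ∀ k, Fin (n k + 1))

/-- the Jacobian matrix `∂ x_j / ∂ w_i` of all necks and cores; `D k i` = derivative of the position of
the mark of rank `i` of neck `k` with respect to its logarithm, `d c` = the same in the core -/
def jac (D : ∀ k, Fin (n k) → ℂ) (d : C → ℂ) :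
    Matrix ((Σ k, Fin (n k)) ⊕ C) ((Σ k, Fin (n k)) ⊕ C) ℂ
  | Sum.inl a, Sum.inl i => if a.1 = i.1 then tco (m i.1) a.2 i.2 * D i.1 i.2 else 0
  | Sum.inr c, Sum.inr c' => if c = c' then d c' else 0
  | Sum.inl _, Sum.inr _ => 0
  | Sum.inr _, Sum.inl _ => 0

theorem norm_det_jac (D : ∀ k, Fin (n k) → ℂ) (d : C → ℂ) :
    ‖(jac n m D d).det‖ = (∏ q : Σ k, Fin (n k), ‖D q.1 q.2‖) * ∏ c, ‖d c‖ := by
  rw [det_key (jac n m D d) (Sum.elim (fun q => if q.2.val < (m q.1).val then q.2.val
    else n q.1 - q.2.val) fun _ => 0)]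
  · rw [norm_prod, Fintype.prod_sum_type]
    congr 1
    · refine Finset.prod_congr rfl fun q _ => ?_
      simp [jac, norm_tco_diag]
    · refine Finset.prod_congr rfl fun c _ => ?_
      simp [jac]
  · rintro (⟨k, a⟩ | c) (⟨k', i⟩ | c') hne hkey
    · by_cases hk : k = k'
      · subst hk
        have hai : a.val ≠ i.val := fun h' => hne (by rw [Fin.ext h'])
        have hn1 := a.isLt
        have hn2 := i.isLt
        simp only [Sum.elim_inl] at hkey
        simp only [jac, if_true, tco]
        by_cases h1 : i.val < (m k).val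
        · rw [if_pos h1] at hkey
          rw [if_pos h1, if_neg, zero_mul]
          intro h2
          rw [if_pos (by omega)] at hkey
          omega
        · rw [if_neg h1] at hkey
          rw [if_neg h1, if_neg, zero_mul]
          intro h2
          rw [if_neg (by omega)] at hkey
          omega
      · simp [jac, hk]
    · rfl
    · rfl
    · have : c ≠ c' := fun h' => hne (by rw [h'])
      simp [jac, this]

end neck

/-! ## Real and complex Jacobians -/

section jacobian

variable {ι : Type*} [Fintype ι] [DecidableEq ι]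

/-- the real Jacobian determinant of a holomorphic map -/
theorem det_fderiv_real (g : (ι → ℂ) → ι → ℂ) (w : ι → ℂ) (hg : DifferentiableAt ℂ g w) :
    (fderiv ℝ g w).det = ‖(fderiv ℂ g w).det‖ ^ 2 := by
  have h : fderiv ℝ g w = (fderiv ℂ g w).restrictScalars ℝ :=
    (hg.hasFDerivAt.restrictScalars ℝ).fderiv
  rw [h]
  exact det_real ι ((fderiv ℂ g w : (ι → ℂ) →L[ℂ] (ι → ℂ)) : (ι → ℂ) →ₗ[ℂ] (ι → ℂ))

theorem abs_det_fderiv_real (g : (ι → ℂ) → ι → ℂ) (w : ι → ℂ) (hg : DifferentiableAt ℂ g w) :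
    |(fderiv ℝ g w).det| = ‖(fderiv ℂ g w).det‖ ^ 2 := by
  rw [det_fderiv_real g w hg, abs_of_nonneg (by positivity)]

end jacobian

end Vale.Agent.P273.H793
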