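import Vale.Agent.P273.H793.FibI

/-!
# P273: `PhiF` as one integral over the product of the curves
-/

noncomputable section

namespace Vale.Agent.P273.H793

open Set Filter MeasureTheory Vale.Agent.P273.H95 Vale.P273.H887
open Vale.Agent.P273.H681 (C6 XX)
open scoped Topology ContDiff

variable (X : Ext) (Θ : Gauge) (T : MT)

/-- the summand, with degree `28 + 2` -/
def Qg (S : L → Bool) (e : E) (v : L → ℂ) : F30 := Qf X Θ T S e v

variable {T}

theorem goodQg (hT : SymT T) : GoodQ (Qg X Θ T) where
  cont := continuousOn_Qf X Θ hT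
  chg := fun _ _ _ he hz _ hv => Qf_chg X Θ hT he hz hv

theorem wf_sum (S : L → Bool) (e : E) :
    Wf X Θ T S e = ∑ σ : L → Bool, Qf X Θ T S e (sheet S e σ) := rfl

/-- **`PhiF` is an integral over the product of the curves.** -/
theorem phiF_eq_curve (hT : SymT T) {b : C6} (hb : b ∈ XX) :
    PhiF X Θ T b = ∫ p, fv (Qg X Θ T) b p ∂(muC b) :=
  fib_fv (goodQg X Θ hT) hb (Wf X Θ T fun _ => false) fun x => wf_sum X Θ S0 (b, x)

end Vale.Agent.P273.H793
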