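import Vale.Agent.P273.H852.RegionDefs
import Vale.Agent.P273.H883.FarMeas
import Vale.Agent.P273.H811.Fib

/-!
# P273, fibre integrals: the sum over the sheets as one integral over the curve

* `sheetMeas_congr`: `sheetMeas s` depends only on `s ^ 2` (almost everywhere);
* `integrable_sheets_iff`, `integral_sheets`: the integral over the product of the curves is the sum
  over the sheets of the integrals over the planes;
* `ae_curve`: almost every point is on the curve;
* `integrable_prod_bound`: the majorant of the tails.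
-/

set_option linter.unusedSectionVars false

noncomputable section

namespace Vale.Agent.P273.H793

open MeasureTheory Finset
open scoped ENNReal
open Vale.Agent.P273.H852 Vale.Agent.P273.H883

/-- sign of a sheet -/
def sg (b : Bool) : ℂ := if b then 1 else -1

theorem sg_sq (b : Bool) : sg b ^ 2 = 1 := by cases b <;> simp [sg]

theorem sheetMeas_congr {s s' : ℂ → ℂ} (hs : Measurable s) (hs' : Measurable s') (μ : Measure ℂ)
    (h : ∀ᵐ x ∂μ, s x ^ 2 = s' x ^ 2) : sheetMeas s μ = sheetMeas s' μ := by
  have m1 : ∀ {t : ℂ → ℂ}, Measurable t → Measurable fun x : ℂ => (x, t x) :=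
    fun ht => measurable_id.prodMk ht
  set P : Set ℂ := {x | s x = s' x} with hP
  have hPm : MeasurableSet P := measurableSet_eq_fun hs hs'
  have key : ∀ (t t' : ℂ → ℂ) (Q : Set ℂ), Measurable t → Measurable t' → MeasurableSet Q →
      (∀ᵐ x ∂μ, x ∈ Q → t x = t' x) →
      (μ.restrict Q).map (fun x => (x, t x)) = (μ.restrict Q).map (fun x => (x, t' x)) := by
    intro t t' Q ht ht' hQ hh
    refine Measure.map_congr ?_
    rw [Filter.EventuallyEq, ae_restrict_iff' hQ]
    filter_upwards [hh] with x hx hxQ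
    rw [hx hxQ]
  have split : ∀ (t : ℂ → ℂ), Measurable t → μ.map (fun x => (x, t x)) =
      (μ.restrict P).map (fun x => (x, t x)) + (μ.restrict Pᶜ).map (fun x => (x, t x)) := by
    intro t ht
    rw [← Measure.map_add _ _ (m1 ht), Measure.restrict_add_restrict_compl hPm]
  have a1 := key s s' P hs hs' hPm (Filter.Eventually.of_forall fun x hx => hx)
  have a2 := key (fun x => -s x) (fun x => -s' x) P hs.neg hs'.neg hPm
    (Filter.Eventually.of_forall fun x hx => by rw [show s x = s' x from hx])
  have a3 := key s (fun x => -s' x) Pᶜ hs hs'.neg hPm.compl (by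
    filter_upwards [h] with x hx hxP
    rcases sq_eq_sq_iff_eq_or_eq_neg.1 hx with h1 | h1
    · exact absurd h1 hxP
    · exact h1)
  have a4 := key (fun x => -s x) s' Pᶜ hs.neg hs' hPm.compl (by
    filter_upwards [h] with x hx hxP
    rcases sq_eq_sq_iff_eq_or_eq_neg.1 hx with h1 | h1
    · exact absurd h1 hxP
    · rw [h1, neg_neg])
  rw [sheetMeas, sheetMeas, split s hs, split (fun x => -s x) hs.neg, split s' hs',
    split (fun x => -s' x) hs'.neg, a1, a2, a3, a4]
  abel

section Sheets

variable {ι : Type*} [Fintype ι] [DecidableEq ι] {s : ℂ → ℂ}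

/-- a choice of sheets over the plane -/
def lift (s : ℂ → ℂ) (σ : ι → Bool) (x : ι → ℂ) (j : ι) : ℂ × ℂ := (x j, sg (σ j) * s (x j))

theorem measurable_lift (hs : Measurable s) (σ : ι → Bool) : Measurable (lift s σ) :=
  measurable_pi_lambda _ fun j => (measurable_pi_apply j).prodMk
    ((hs.comp (measurable_pi_apply j)).const_mul _)

theorem sigmaFinite_map_graph (hs : Measurable s) (c : ℂ) :
    SigmaFinite ((volume : Measure ℂ).map fun x => (x, c * s x)) := by
  have hm : Measurable fun x : ℂ => (x, c * s x) := measurable_id.prodMk (hs.const_mul c)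
  refine ⟨⟨⟨fun n => Prod.fst ⁻¹' (Metric.ball 0 n), fun _ => trivial, fun n => ?_, ?_⟩⟩⟩
  · rw [Measure.map_apply hm (measurable_fst measurableSet_ball)]
    exact measure_ball_lt_top
  · rw [← Set.preimage_iUnion, Metric.iUnion_ball_nat]
    simp

theorem pi_sheetMeas (hs : Measurable s) :
    Measure.pi (fun _ : ι => sheetMeas s volume) =
      ∑ σ : ι → Bool, (volume : Measure (ι → ℂ)).map (lift s σ) := by
  have h0 : ∀ b : Bool, SigmaFinite ((volume : Measure ℂ).map fun x => (x, sg b * s x)) :=
    fun b => sigmaFinite_map_graph hs _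
  have h1 : sheetMeas s volume = (volume : Measure ℂ).map (fun x => (x, sg false * s x)) +
      (volume : Measure ℂ).map (fun x => (x, sg true * s x)) := by
    simp only [sheetMeas, sg, if_true, if_false, Bool.false_eq_true, one_mul, neg_mul]
    exact add_comm _ _
  rw [h1]
  rw [pi_sum_bool (X := fun _ : ι => ℂ × ℂ) fun b _ =>
    (volume : Measure ℂ).map (fun x => (x, sg b * s x))]
  refine Finset.sum_congr rfl fun σ _ => ?_
  have hm : ∀ j, AEMeasurable (fun x : ℂ => (x, sg (σ j) * s x)) (volume : Measure ℂ) :=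
    fun j => (measurable_id.prodMk (hs.const_mul _)).aemeasurable
  exact (Measure.pi_map_pi (X := fun _ : ι => ℂ) (Y := fun _ : ι => ℂ × ℂ)
    (f := fun j x => (x, sg (σ j) * s x)) hm).symm

variable {F : Type*} [NormedAddCommGroup F]

/-- Integrability sheet by sheet. -/
theorem integrable_sheets (hs : Measurable s) {f : (ι → ℂ × ℂ) → F}
    (hf : Integrable f (Measure.pi fun _ : ι => sheetMeas s volume)) (σ : ι → Bool) :
    Integrable (fun x => f (lift s σ x)) := by
  rw [pi_sheetMeas hs, integrable_finsetSum_measure] at hf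
  exact (hf σ (mem_univ _)).comp_measurable (measurable_lift hs σ)

variable [NormedSpace ℝ F]

/-- **The sum over the sheets as one integral.** -/
theorem integral_sheets (hs : Measurable s) {f : (ι → ℂ × ℂ) → F}
    (hf : Integrable f (Measure.pi fun _ : ι => sheetMeas s volume)) :
    ∫ x : ι → ℂ, ∑ σ : ι → Bool, f (lift s σ x) =
      ∫ p, f p ∂(Measure.pi fun _ : ι => sheetMeas s volume) := by
  rw [integral_finsetSum _ fun σ _ => integrable_sheets hs hf σ]
  rw [pi_sheetMeas hs] at hf ⊢
  rw [integral_finsetSum_measure fun σ _ => integrable_finsetSum_measure.1 hf σ (mem_univ _)]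
  refine Finset.sum_congr rfl fun σ _ => ?_
  rw [integral_map (measurable_lift hs σ).aemeasurable]
  exact (integrable_finsetSum_measure.1 hf σ (mem_univ _)).aestronglyMeasurable

/-- the same, with a linear map -/
theorem integral_sheets_map {G : Type*} [NormedAddCommGroup G] [NormedSpace ℝ G] (A : G →L[ℝ] F)
    (hs : Measurable s) {f : (ι → ℂ × ℂ) → F}
    (hf : Integrable f (Measure.pi fun _ : ι => sheetMeas s volume))
    (q : (ι → ℂ) → (ι → Bool) → G) (hq : ∀ x σ, f (lift s σ x) = A (q x σ)) :
    ∫ x : ι → ℂ, A (∑ σ : ι → Bool, q x σ) =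
      ∫ p, f p ∂(Measure.pi fun _ : ι => sheetMeas s volume) := by
  rw [← integral_sheets hs hf]
  refine integral_congr_ae (Filter.Eventually.of_forall fun x => ?_)
  simp only [map_sum, hq]

/-- fibre integrals -/
theorem fib_sheets {E W : Type*} [NormedAddCommGroup E] [NormedSpace ℝ E] [NormedAddCommGroup W]
    [NormedSpace ℝ W] {n k : ℕ} (e : Fin n → (ι → ℂ))
    (G : E × (ι → ℂ) → (E × (ι → ℂ)) [⋀^Fin (n + k)]→L[ℝ] W) (b : E)
    (g : (ι → ℂ) → (ι → Bool) → (E × (ι → ℂ)) [⋀^Fin (n + k)]→L[ℝ] W)
    (hG : ∀ x, G (b, x) = ∑ σ : ι → Bool, g x σ) (hs : Measurable s)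
    (f : (ι → ℂ × ℂ) → E [⋀^Fin k]→L[ℝ] W)
    (hf : Integrable f (Measure.pi fun _ : ι => sheetMeas s volume))
    (hfg : ∀ x σ, f (lift s σ x) = H811.fixA e (g x σ)) :
    H811.fib volume e G b = ∫ p, f p ∂(Measure.pi fun _ : ι => sheetMeas s volume) := by
  have h := integral_sheets_map (H811.fixA e) hs hf g hfg
  rw [← h]
  refine integral_congr_ae (Filter.Eventually.of_forall fun x => ?_)
  exact congrArg (H811.fixA e) (hG x)

theorem ae_pi_sheet (hs : Measurable s) {Z : Set (ι → ℂ × ℂ)} (hZ : MeasurableSet Z)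
    (h : ∀ σ x, lift s σ x ∈ Z) :
    ∀ᵐ p ∂(Measure.pi fun _ : ι => sheetMeas s volume), p ∈ Z := by
  rw [pi_sheetMeas hs, ae_iff, Measure.finsetSum_apply]
  refine Finset.sum_eq_zero fun σ _ => ?_
  have hm : MeasurableSet {p : ι → ℂ × ℂ | ¬ p ∈ Z} := hZ.compl
  rw [Measure.map_apply (measurable_lift hs σ) hm]
  have h1 : lift s σ ⁻¹' {p | ¬ p ∈ Z} = ∅ := by
    ext x
    simpa using h σ x
  rw [h1, measure_empty]

theorem integrable_pi_sheet (hs : Measurable s) {f : (ι → ℂ × ℂ) → F}
    (hm : AEStronglyMeasurable f (Measure.pi fun _ : ι => sheetMeas s volume))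
    {g : (ι → ℂ) → ℝ} (hg : Integrable g) (h : ∀ σ x, ‖f (lift s σ x)‖ ≤ g x) :
    Integrable f (Measure.pi fun _ : ι => sheetMeas s volume) := by
  rw [pi_sheetMeas hs] at hm ⊢
  rw [integrable_finsetSum_measure]
  intro σ _
  have hm1 : AEStronglyMeasurable f ((volume : Measure (ι → ℂ)).map (lift s σ)) := by
    refine hm.mono_measure ?_
    rw [← Finset.add_sum_erase _ _ (Finset.mem_univ σ)]
    exact Measure.le_add_right le_rfl
  rw [integrable_map_measure hm1 (measurable_lift hs σ).aemeasurable]
  refine hg.mono' (hm1.comp_aemeasurable (measurable_lift hs σ).aemeasurable) ?_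
  exact Filter.Eventually.of_forall fun x => h σ x

end Sheets

end Vale.Agent.P273.H793
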