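import Vale.Agent.P273.H887.WfChg
import Vale.Agent.P273.H793.FibA
import Vale.Agent.P273.H793.Frame

/-!
# P273, fibre integrals: one choice of sheets

* `continuousWithinAt_Qf`, `continuousOn_Qf`: the summand `Qf` is continuous on the product of the
  curves (roots and coincidences included);
* `bound_Qf`: it is bounded on compact sets, in all charts.
-/

set_option linter.unusedSectionVars false

noncomputable section

namespace Vale.Agent.P273.H793

open Set Filter MeasureTheory Vale.Agent.P273.H95 Vale.Agent.P273.H973 Vale.P273.H887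
open Vale.Agent.P273.H681 (C6 XX)
open scoped Topology ContDiff

variable (X : Ext) (Θ : Gauge) {T : MT}

/-- points of the curves -/
def Cv (S : L → Bool) : Set (E × (L → ℂ)) := {q | q.2 ∈ shSet (cf S q.1)}

theorem continuous_cf (S : L → Bool) : Continuous (cf S) := by
  rw [continuous_iff_continuousAt]
  exact fun e => (analyticAt_cf S e).continuousAt

theorem isClosed_Cv (S : L → Bool) : IsClosed (Cv S) := by
  have h : Cv S = ⋂ j, {q : E × (L → ℂ) | q.2 j ^ 2 = cf S q.1 j} := by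
    ext q; simp [Cv, shSet]
  rw [h]
  refine isClosed_iInter fun j => isClosed_eq ?_ ?_
  · fun_prop
  · exact (continuous_apply j).comp ((continuous_cf S).comp continuous_fst)

theorem continuousWithinAt_Qf (hT : SymT T) (S : L → Bool) {q₀ : E × (L → ℂ)}
    (h0 : q₀.1.1 ∈ XX) (hq : q₀ ∈ Cv S) :
    ContinuousWithinAt (fun q : E × (L → ℂ) => Qf X Θ T S q.1 q.2) (Cv S) q₀ := by
  by_cases h : ∃ j, cf S q₀.1 j = 0
  · obtain ⟨j, hj⟩ := h
    obtain ⟨k, hk⟩ := cf_eq_zero hj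
    have h1 := Qf_root X Θ T h0 hk
    have h2 : ∀ᶠ q in 𝓝[Cv S] q₀, Qf X Θ T S q.1 q.2 = 0 := by
      have h3 : ∀ᶠ q : E × (L → ℂ) in 𝓝 q₀, ∀ v ∈ shSet (cf S q.1), Qf X Θ T S q.1 v = 0 :=
        continuous_fst.continuousAt.eventually h1
      filter_upwards [mem_nhdsWithin_of_mem_nhds h3, self_mem_nhdsWithin] with q hq1 hq2
      exact hq1 _ hq2
    exact continuousWithinAt_const.congr_of_eventuallyEq h2 (h1.self_of_nhds _ hq)
  · push Not at h
    obtain ⟨y, hya, hy0, hys⟩ := exists_branch (analyticAt_cf S q₀.1) h hq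
    have h1 : ContinuousAt (fun e => Qf X Θ T S e (y e)) q₀.1 :=
      (Qf_branch X Θ hT h0 hya.continuousAt hys h).1.continuousAt
    have h2 : ContinuousAt (fun q : E × (L → ℂ) => Qf X Θ T S q.1 (y q.1)) q₀ :=
      ContinuousAt.comp (f := Prod.fst) (g := fun e => Qf X Θ T S e (y e)) h1
        continuous_fst.continuousAt
    have h3 : ∀ᶠ q in 𝓝[Cv S] q₀, q.2 = y q.1 := by
      have h4 : ∀ j, ∀ᶠ q : E × (L → ℂ) in 𝓝 q₀, q.2 j + y q.1 j ≠ 0 := by
        intro j
        have h5 : ContinuousAt (fun q : E × (L → ℂ) => q.2 j + y q.1 j) q₀ := by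
          have h6 : ContinuousAt (fun q : E × (L → ℂ) => y q.1 j) q₀ :=
            (continuous_apply j).continuousAt.comp
              (ContinuousAt.comp (f := Prod.fst) (g := y) hya.continuousAt
                continuous_fst.continuousAt)
          exact (by fun_prop : ContinuousAt (fun q : E × (L → ℂ) => q.2 j) q₀).add h6
        refine h5.eventually_ne ?_
        rw [hy0, ← two_mul]
        exact mul_ne_zero two_ne_zero (ne_zero_of_mem hq h j)
      have h7 : ∀ᶠ q : E × (L → ℂ) in 𝓝 q₀, ∀ j, q.2 j + y q.1 j ≠ 0 := eventually_all.2 h4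
      filter_upwards [mem_nhdsWithin_of_mem_nhds h7, self_mem_nhdsWithin] with q hq1 hq2
      funext j
      have h8 : q.2 j ^ 2 = y q.1 j ^ 2 := by rw [hq2 j, hys q.1 j]
      rcases sq_eq_sq_iff_eq_or_eq_neg.1 h8 with h9 | h9
      · exact h9
      · exact absurd (by rw [h9]; ring) (hq1 j)
    refine h2.continuousWithinAt.congr_of_eventuallyEq ?_ ?_
    · filter_upwards [h3] with q hq
      rw [hq]
    · rw [hy0]

theorem continuousOn_Qf (hT : SymT T) (S : L → Bool) :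
    ContinuousOn (fun q : E × (L → ℂ) => Qf X Θ T S q.1 q.2) (Cv S ∩ {q | q.1.1 ∈ XX}) :=
  fun _ hq => (continuousWithinAt_Qf X Θ hT S hq.2 hq.1).mono inter_subset_left

/-- the summand is bounded on compact sets of the base and of the charts -/
theorem bound_Qf (hT : SymT T) {Kb : Set C6} (hK : IsCompact Kb) (hKX : Kb ⊆ XX) (ρ : ℝ)
    (S : L → Bool) : ∃ C : ℝ, ∀ b ∈ Kb, ∀ z v : L → ℂ, (∀ j, ‖z j‖ ≤ ρ) →
      v ∈ shSet (cf S (b, z)) → ‖Qf X Θ T S (b, z) v‖ ≤ C := by
  have hB : IsCompact (Kb ×ˢ {z : L → ℂ | ∀ j, ‖z j‖ ≤ ρ}) := by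
    refine hK.prod ?_
    have h1 : {z : L → ℂ | ∀ j, ‖z j‖ ≤ ρ} = Set.univ.pi fun _ => Metric.closedBall (0 : ℂ) ρ := by
      ext z; simp
    rw [h1]
    exact isCompact_univ_pi fun _ => isCompact_closedBall 0 ρ
  obtain ⟨M, hM⟩ := hB.exists_bound_of_continuousOn (continuous_cf S).continuousOn
  have hM' : ∀ e ∈ Kb ×ˢ {z : L → ℂ | ∀ j, ‖z j‖ ≤ ρ}, ∀ j, ‖cf S e j‖ ≤ M := fun e he j =>
    (norm_le_pi_norm _ j).trans (hM _ he)
  set Q : Set (E × (L → ℂ)) := Cv S ∩ ((Kb ×ˢ {z : L → ℂ | ∀ j, ‖z j‖ ≤ ρ}) ×ˢ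
    (Set.univ.pi fun _ : L => Metric.closedBall (0 : ℂ) (M + 1))) with hQ
  have hQc : IsCompact Q := by
    refine IsCompact.inter_left ?_ (isClosed_Cv S)
    exact hB.prod (isCompact_univ_pi fun _ => isCompact_closedBall 0 (M + 1))
  have hcont : ContinuousOn (fun q : E × (L → ℂ) => Qf X Θ T S q.1 q.2) Q :=
    (continuousOn_Qf X Θ hT S).mono fun q hq => ⟨hq.1, hKX hq.2.1.1⟩
  obtain ⟨C, hC⟩ := hQc.exists_bound_of_continuousOn hcont
  refine ⟨C, fun b hb z v hz hv => ?_⟩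
  have h2 : ((b, z), v) ∈ Q := by
    refine ⟨hv, ⟨hb, hz⟩, ?_⟩
    intro j _
    rw [Metric.mem_closedBall, dist_zero_right]
    have h1 : ‖v j‖ ^ 2 ≤ M := by
      rw [← norm_pow, hv j]
      exact hM' (b, z) ⟨hb, hz⟩ j
    change ‖v j‖ ≤ M + 1
    nlinarith [norm_nonneg (v j), sq_nonneg (‖v j‖ - 1)]
  exact hC ((b, z), v) h2

end Vale.Agent.P273.H793
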