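import Vale.Agent.P273.H793.FibC
import Vale.Agent.P273.H811.Bulk

/-!
# P273, fibre integrals: one integral over the product of the curves

`Q S e v` = a form on (roots, marks) in the chart `S` which depends on the sheets `v`; `GoodQ Q`:
continuous on the curves and compatible with the changes of charts.

* `fv`: the form after inserting the vertical vectors, on the product of the curves;
* `norm_fv_le`: tail bound for one choice of sheets;
* `integrable_fv`, `integral_fv`: the integral of the sum over the sheets is the integral of `fv` over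
  the product of the curves, for every measurable branch of the square root.
-/

set_option linter.unusedSectionVars false

noncomputable section

namespace Vale.Agent.P273.H793

open Set Filter MeasureTheory Vale.Agent.P273.H95 Vale.P273.H887
open Vale.Agent.P273.H681 (C6 XX)
open Vale.Agent.P273.H811 (fixA fixA_apply chS flip_chS Dinv hasFDerivAt_Inv norm_inv_far far_ne
  pvb cvb vb_eq card_pvb bd bd_nonneg le_bd prod_bd wt wt_nonneg integrable_wt)
open Vale.Agent.P273.H852 (sheetMeas)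
open scoped Topology ContDiff

/-- forms of degree 30 -/
abbrev F30 : Type := Alt (28 + 2) (C6 × (L → ℂ))

/-- continuous on the curves, compatible with the changes of charts -/
structure GoodQ (Q : (L → Bool) → E → (L → ℂ) → F30) : Prop where
  cont : ∀ S, ContinuousOn (fun q : E × (L → ℂ) => Q S q.1 q.2) (Cv S ∩ {q | q.1.1 ∈ XX})
  chg : ∀ (S S' : L → Bool) (e : E), e.1 ∈ XX → (∀ j, S j ≠ S' j → e.2 j ≠ 0) →
    ∀ v ∈ shSet (cf S e), Q S e v =
      (Q S' (H95.flip S S' e) (flipv S S' e.2 v)).compContinuousLinearMap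
        (fderiv ℝ (H95.flip S S') e)

/-- no far marks -/
abbrev S0 : L → Bool := fun _ => false

variable (Q : (L → Bool) → E → (L → ℂ) → F30)

/-- the form, after inserting the vertical vectors, on the product of the curves -/
def fv (b : C6) (p : L → ℂ × ℂ) : C6 [⋀^Fin 2]→L[ℝ] ℝ :=
  fixA vb (Q S0 (b, fun j => (p j).1) fun j => (p j).2)

/-- the product of the curves -/
def Zc (b : C6) : Set (L → ℂ × ℂ) := {p | ∀ j, (p j).2 ^ 2 = sx (rts b) (p j).1}

theorem mem_Zc {b : C6} {p : L → ℂ × ℂ} : p ∈ Zc b ↔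
    (fun j => (p j).2) ∈ shSet (cf S0 (b, fun j => (p j).1)) := Iff.rfl

/-- both coordinates -/
def toCv (b : C6) (p : L → ℂ × ℂ) : E × (L → ℂ) := ((b, fun j => (p j).1), fun j => (p j).2)

theorem continuous_toCv (b : C6) : Continuous (toCv b) := by
  unfold toCv
  fun_prop

theorem isClosed_Zc (b : C6) : IsClosed (Zc b) := (isClosed_Cv S0).preimage (continuous_toCv b)

variable {Q}

theorem continuousOn_fv (hQ : GoodQ Q) {b : C6} (hb : b ∈ XX) :
    ContinuousOn (fv Q b) (Zc b) := by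
  have h1 : ContinuousOn (fun p => Q S0 (toCv b p).1 (toCv b p).2) (Zc b) :=
    (hQ.cont S0).comp (continuous_toCv b).continuousOn (fun p hp => ⟨hp, hb⟩)
  have h2 : Continuous (fixA (E := C6) (X := L → ℂ) (W := ℝ) (n := 28) (k := 2) vb) :=
    ContinuousLinearMap.continuous _
  exact h2.comp_continuousOn h1

/-- bounded on compact sets of the base and of the charts -/
theorem bound_Q (hQ : GoodQ Q) {Kb : Set C6} (hK : IsCompact Kb) (hKX : Kb ⊆ XX) (ρ : ℝ)
    (S : L → Bool) : ∃ C : ℝ, ∀ b ∈ Kb, ∀ z v : L → ℂ, (∀ j, ‖z j‖ ≤ ρ) →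
      v ∈ shSet (cf S (b, z)) → ‖Q S (b, z) v‖ ≤ C := by
  have hB : IsCompact (Kb ×ˢ {z : L → ℂ | ∀ j, ‖z j‖ ≤ ρ}) := by
    refine hK.prod ?_
    have h1 : {z : L → ℂ | ∀ j, ‖z j‖ ≤ ρ} = Set.univ.pi fun _ => Metric.closedBall (0 : ℂ) ρ := by
      ext z; simp
    rw [h1]
    exact isCompact_univ_pi fun _ => isCompact_closedBall 0 ρ
  obtain ⟨M, hM⟩ := hB.exists_bound_of_continuousOn (continuous_cf S).continuousOn
  have hM' : ∀ e ∈ Kb ×ˢ {z : L → ℂ | ∀ j, ‖z j‖ ≤ ρ}, ∀ j, ‖cf S e j‖ ≤ M := fun e he j =>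
    (norm_le_pi_norm _ j).trans (hM _ he)
  set P : Set (E × (L → ℂ)) := Cv S ∩ ((Kb ×ˢ {z : L → ℂ | ∀ j, ‖z j‖ ≤ ρ}) ×ˢ
    (Set.univ.pi fun _ : L => Metric.closedBall (0 : ℂ) (M + 1))) with hP
  have hPc : IsCompact P := by
    refine IsCompact.inter_left ?_ (isClosed_Cv S)
    exact hB.prod (isCompact_univ_pi fun _ => isCompact_closedBall 0 (M + 1))
  have hcont : ContinuousOn (fun q : E × (L → ℂ) => Q S q.1 q.2) P :=
    (hQ.cont S).mono fun q hq => ⟨hq.1, hKX hq.2.1.1⟩
  obtain ⟨C, hC⟩ := hPc.exists_bound_of_continuousOn hcont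
  refine ⟨C, fun b hb z v hz hv => ?_⟩
  have h2 : ((b, z), v) ∈ P := by
    refine ⟨hv, ⟨hb, hz⟩, ?_⟩
    intro j _
    rw [Metric.mem_closedBall, dist_zero_right]
    have h1 : ‖v j‖ ^ 2 ≤ M := by
      rw [← norm_pow, hv j]
      exact hM' (b, z) ⟨hb, hz⟩ j
    change ‖v j‖ ≤ M + 1
    nlinarith [norm_nonneg (v j), sq_nonneg (‖v j‖ - 1)]
  exact hC ((b, z), v) h2

/-- the bound of a form in the far chart -/
theorem norm_fixA_far (η : F30) {C : ℝ} (hC : ‖η‖ ≤ C)
    (x : L → ℂ) : ‖fixA vb (η.compContinuousLinearMap (Dinv (H811.far x) x))‖ ≤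
      C * (∏ i, 4 * ‖cvb i‖) * wt x := by
  have hC0 : 0 ≤ C := (norm_nonneg _).trans hC
  refine ContinuousAlternatingMap.opNorm_le_bound _
    (mul_nonneg (mul_nonneg hC0 (Finset.prod_nonneg fun _ _ => by positivity)) (wt_nonneg _))
    fun u => ?_
  have h5 := η.le_opNorm (fun i => Dinv (H811.far x) x (H811.vec vb u i))
  refine h5.trans ?_
  have h6 : ∏ i, ‖Dinv (H811.far x) x (H811.vec vb u i)‖ ≤ ∏ l, bd pvb cvb x u l := by
    refine Finset.prod_le_prod (fun _ _ => norm_nonneg _) fun i _ => ?_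
    exact le_bd pvb cvb x u i
  rw [prod_bd card_pvb] at h6
  calc _ ≤ C * ((∏ i, 4 * ‖cvb i‖) * wt x * ∏ i, ‖u i‖) :=
        mul_le_mul hC h6 (Finset.prod_nonneg fun _ _ => norm_nonneg _) hC0
    _ = _ := by ring

theorem far_cond (x : L → ℂ) (b : C6) (j : L) (hj : S0 j ≠ chS (H811.far x) j) :
    ((b, x) : E).2 j ≠ 0 := by
  apply far_ne x j
  by_contra h
  exact hj (by simp [S0, chS, h])

/-- **tail bound**, uniform on compact sets of the base -/
theorem norm_fv_le (hQ : GoodQ Q) {Kb : Set C6} (hK : IsCompact Kb) (hKX : Kb ⊆ XX) :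
    ∃ C : ℝ, 0 ≤ C ∧ ∀ b ∈ Kb, ∀ p ∈ Zc b, ‖fv Q b p‖ ≤ C * wt fun j => (p j).1 := by
  choose C hC using fun S : Finset L => bound_Q hQ hK hKX 1 (chS S)
  have hC1' : ∀ S, C S ≤ ∑ S : Finset L, |C S| := fun S => (le_abs_self _).trans
    (Finset.single_le_sum (f := fun S => |C S|) (fun _ _ => abs_nonneg _) (Finset.mem_univ S))
  have hC0 : 0 ≤ ∑ S : Finset L, |C S| := Finset.sum_nonneg fun _ _ => abs_nonneg _
  refine ⟨(∑ S : Finset L, |C S|) * ∏ i, 4 * ‖cvb i‖,
    mul_nonneg hC0 (Finset.prod_nonneg fun _ _ => by positivity), fun b hb p hp => ?_⟩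
  have hz := far_cond (fun j => (p j).1) b
  have h1 := hQ.chg S0 (chS (H811.far fun j => (p j).1)) (b, fun j => (p j).1) (hKX hb) hz
    (fun j => (p j).2) hp
  have h2 : fderiv ℝ (H95.flip S0 (chS (H811.far fun j => (p j).1))) (b, fun j => (p j).1) =
      Dinv (H811.far fun j => (p j).1) fun j => (p j).1 := by
    rw [flip_chS]
    exact (hasFDerivAt_Inv _ b _ (far_ne fun j => (p j).1)).fderiv
  have h4 := mem_flip (S := S0) (S' := chS (H811.far fun j => (p j).1))
    (e := (b, fun j => (p j).1)) hz (v := fun j => (p j).2) hp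
  rw [h2] at h1
  rw [flip_chS] at h1 h4
  have h3 := (hC (H811.far fun j => (p j).1) b hb _ _ (fun j =>
    (norm_le_pi_norm _ j).trans (norm_inv_far fun j => (p j).1)) h4).trans (hC1' _)
  rw [fv, h1]
  exact norm_fixA_far _ h3 _

/-- the principal branch -/
def sq0 (b : C6) (x : ℂ) : ℂ := csq (sx (rts b) x)

theorem measurable_sq0 (b : C6) : Measurable (sq0 b) := by
  have h : Measurable fun x : ℂ => sx (rts b) x := by
    unfold sx
    fun_prop
  exact h.pow_const _

theorem sq0_sq (b : C6) (x : ℂ) : sq0 b x ^ 2 = sx (rts b) x := csq_sq _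

theorem lift_mem (b : C6) (σ : L → Bool) (x : L → ℂ) : lift (sq0 b) σ x ∈ Zc b := by
  intro j
  change (sg (σ j) * sq0 b (x j)) ^ 2 = sx (rts b) (x j)
  rw [mul_pow, sg_sq, one_mul, sq0_sq]

theorem lift_sq0 (b : C6) (σ : L → Bool) (x : L → ℂ) :
    toCv b (lift (sq0 b) σ x) = ((b, x), sheet S0 (b, x) σ) := rfl

/-- the measure on the product of the curves -/
def muC (b : C6) : Measure (L → ℂ × ℂ) := Measure.pi fun _ : L => sheetMeas (sq0 b) volume

theorem muC_eq {b : C6} {s : ℂ → ℂ} (hs : Measurable s)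
    (h : ∀ᵐ x : ℂ, s x ^ 2 = sx (rts b) x) :
    Measure.pi (fun _ : L => sheetMeas s volume) = muC b := by
  rw [muC, sheetMeas_congr hs (measurable_sq0 b) volume]
  filter_upwards [h] with x hx
  rw [hx, sq0_sq]

theorem ae_Zc (b : C6) : ∀ᵐ p ∂(muC b), p ∈ Zc b :=
  ae_pi_sheet (measurable_sq0 b) (isClosed_Zc b).measurableSet (lift_mem b)

theorem restrict_Zc (b : C6) : (muC b).restrict (Zc b) = muC b :=
  Measure.restrict_eq_self_of_ae_mem (ae_Zc b)

theorem aestronglyMeasurable_fv (hQ : GoodQ Q) {b : C6} (hb : b ∈ XX) :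
    AEStronglyMeasurable (fv Q b) (muC b) := by
  rw [← restrict_Zc]
  exact (continuousOn_fv hQ hb).aestronglyMeasurable (isClosed_Zc b).measurableSet

/-- **one choice of sheets is integrable** -/
theorem integrable_fv (hQ : GoodQ Q) {b : C6} (hb : b ∈ XX) : Integrable (fv Q b) (muC b) := by
  obtain ⟨C, hC0, hC⟩ := norm_fv_le hQ (isCompact_singleton (x := b)) (by simpa using hb)
  exact integrable_pi_sheet (measurable_sq0 b) (aestronglyMeasurable_fv hQ hb)
    ((integrable_wt (ι := L)).const_mul C) fun σ x => hC b rfl _ (lift_mem b σ x)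


theorem fv_lift (b : C6) (σ : L → Bool) (x : L → ℂ) :
    fv Q b (lift (sq0 b) σ x) = fixA vb (Q S0 (b, x) (sheet S0 (b, x) σ)) := rfl

/-- the sum over the sheets -/
theorem fib_fv (hQ : GoodQ Q) {b : C6} (hb : b ∈ XX) (G : C6 × (L → ℂ) → F30)
    (hG : ∀ x, G (b, x) = ∑ σ : L → Bool, Q S0 (b, x) (sheet S0 (b, x) σ)) :
    H811.fib (n := 28) (k := 2) volume vb G b = ∫ p, fv Q b p ∂(muC b) :=
  fib_sheets vb G b (fun x σ => Q S0 (b, x) (sheet S0 (b, x) σ)) hG (measurable_sq0 b) (fv Q b)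
    (integrable_fv hQ hb) fun x σ => fv_lift b σ x

end Vale.Agent.P273.H793
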