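import Vale.Agent.P273.H852.RegionDefs
import Vale.Agent.P273.H793.Frame

/-!
# P273, LIM-R4: the frame identity for the regions of `H852.RegionDefs`

`Ψ (β, ((u, θ), z)) = (β, x)` with `x` = the `x`-coordinates of the marks.  For an alternating form `Θ`
on P × (ι → ℂ) the value on the frame (β', -∂_u, ∂_θ, ∂_z, i ∂_z) is R.jac times the value on
(β', ∂_Re x_j, ∂_Im x_j).
-/

set_option linter.unusedSectionVars false
set_option linter.unusedSimpArgs false

noncomputable section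

namespace Vale.Agent.P273.H793

open Finset
open Vale.Agent.P273.H852

variable {ι K : Type*} [Fintype ι] [DecidableEq ι] [Fintype K] [DecidableEq K]

/-! ## Marks = free gaps and core marks -/

section eqv

variable (R : Reg ι K)

/-- the mark of a free gap (same rank), or the core mark -/
def markOf : R.Gf ⊕ R.Kc → ι
  | Sum.inl g => (R.ord g.1 g.2).1
  | Sum.inr c => c.1

theorem markOf_bij : Function.Bijective (markOf R) := by
  constructor
  · rintro (⟨k, i⟩ | c) (⟨k', i'⟩ | c') h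
    · have h1 : R.A (R.ord k i).1 = Sum.inl k := (R.ord k i).2
      have h2 : R.A (R.ord k' i').1 = Sum.inl k' := (R.ord k' i').2
      have h3 : (R.ord k i).1 = (R.ord k' i').1 := h
      rw [h3, h2] at h1
      have hk : k' = k := Sum.inl.inj h1
      subst hk
      have h4 : R.ord k' i = R.ord k' i' := Subtype.ext h3
      rw [(R.ord k').injective h4]
    · have h3 : (R.ord k i).1 = c'.1 := h
      exact absurd (h3 ▸ (R.ord k i).2) (c'.2 k)
    · have h3 : c.1 = (R.ord k' i').1 := h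
      exact absurd (h3 ▸ (R.ord k' i').2) (h3 ▸ c.2 k')
    · have h3 : c.1 = c'.1 := h
      rw [Subtype.ext h3]
  · intro j
    match h : R.A j with
    | Sum.inl k => exact ⟨Sum.inl ⟨k, (R.ord k).symm ⟨j, h⟩⟩, by simp [markOf]⟩
    | Sum.inr b => exact ⟨Sum.inr ⟨j, fun k hk => by simp [hk] at h⟩, rfl⟩

/-- marks = free gaps and core marks -/
def eqv : R.Gf ⊕ R.Kc ≃ ι := Equiv.ofBijective _ (markOf_bij R)

theorem eqv_inl (k : K) (i : Fin (R.n k)) : eqv R (Sum.inl ⟨k, i⟩) = (R.ord k i).1 := rfl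

theorem eqv_inr (c : R.Kc) : eqv R (Sum.inr c) = c.1 := rfl

/-- the `x`-coordinates -/
def xpos (D : Necks K) (τ : R.Gap → ℂ) (z : R.Kc → ℂ) (j : ι) : ℂ := (R.pos D τ z j).1

theorem xpos_inl (D : Necks K) (τ : R.Gap → ℂ) (z : R.Kc → ℂ) (k : K) (i : Fin (R.n k)) :
    xpos R D τ z (eqv R (Sum.inl ⟨k, i⟩)) = D.e k + (R.U D τ k i + R.V D τ k i) / 2 := by
  rw [eqv_inl, xpos]
  unfold Reg.pos
  split
  · rename_i k' h'
    have hk : k = k' := Sum.inl.inj ((R.ord k i).2.symm.trans h')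
    subst hk
    simp [Necks.pt]
  · rename_i b h'
    exact absurd ((R.ord k i).2.symm.trans h') (by simp)

theorem xpos_inr (D : Necks K) (τ : R.Gap → ℂ) (z : R.Kc → ℂ) (c : R.Kc) :
    xpos R D τ z (eqv R (Sum.inr c)) = z c := by
  rw [eqv_inr, xpos]
  unfold Reg.pos
  split
  · rename_i k' h'
    exact absurd h' (c.2 k')
  · rfl

end eqv

/-! ## Derivatives along lines -/

section lines

variable (R : Reg ι K)

theorem fullGap_line {n : ℕ} (m : Fin (n + 1)) (Y : ℝ) (u du : Fin n → ℝ) (t : ℝ)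
    (i : Fin (n + 1)) :
    fullGap m Y (fun a => u a + t * du a) i = fullGap m Y u i + t * fullGap m 0 du i := by
  rcases Fin.eq_self_or_eq_succAbove m i with rfl | ⟨a, rfl⟩
  · simp only [fullGap_same, sum_add_distrib, ← mul_sum]; ring
  · simp only [fullGap_succAbove]

/-- the direction `-du + i dθ` of the logarithms of the gaps -/
def dlog {n : ℕ} (m : Fin (n + 1)) (du dθ : Fin n → ℝ) (i : Fin (n + 1)) : ℂ :=
  -((fullGap m 0 du i : ℝ) : ℂ) + ((fullGap m 0 dθ i : ℝ) : ℂ) * Complex.I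

theorem sum_dlog {n : ℕ} (m : Fin (n + 1)) (du dθ : Fin n → ℝ) : ∑ i, dlog m du dθ i = 0 := by
  simp only [dlog, sum_add_distrib, sum_neg_distrib, ← sum_mul, ← Complex.ofReal_sum, sum_fullGap]
  simp

/-- the derivative of the logarithm of the position -/
def dpos {n : ℕ} (m : Fin (n + 1)) (du dθ : Fin n → ℝ) (i : Fin n) : ℂ :=
  ∑ a : Fin n, tco m a i * (-(du a : ℂ) + (dθ a : ℂ) * Complex.I)

theorem sum_Iic_dlog {n : ℕ} (m : Fin (n + 1)) (du dθ : Fin n → ℝ) (i : Fin n) :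
    ∑ g ∈ Iic i.castSucc, dlog m du dθ g = dpos m du dθ i := by
  have h1 : ∑ g ∈ Iic i.castSucc, dlog m du dθ g
      = ∑ g : Fin (n + 1), if g.val ≤ i.val then dlog m du dθ g else 0 := by
    rw [← sum_filter]
    refine sum_congr ?_ fun _ _ => rfl
    ext g
    simp [Fin.le_def]
  rw [h1, prefix_sum m, sum_dlog]
  simp only [ite_self, zero_add, dpos]
  refine sum_congr rfl fun a _ => ?_
  simp only [dlog, fullGap_succAbove]

theorem sum_Ioi_dlog {n : ℕ} (m : Fin (n + 1)) (du dθ : Fin n → ℝ) (i : Fin n) :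
    ∑ g ∈ Ioi i.castSucc, dlog m du dθ g = -dpos m du dθ i := by
  have h1 : ∑ g ∈ Iic i.castSucc, dlog m du dθ g + ∑ g ∈ Ioi i.castSucc, dlog m du dθ g
      = ∑ g, dlog m du dθ g := by
    rw [← sum_union]
    · refine sum_congr ?_ fun _ _ => rfl
      ext g; simp [le_or_gt]
    · rw [Finset.disjoint_left]
      intro g hg hg'
      simp only [mem_Iic, mem_Ioi] at hg hg'
      exact absurd hg (not_le.2 hg')
  rw [sum_Iic_dlog, sum_dlog] at h1
  exact (neg_eq_of_add_eq_zero_right h1).symm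

variable {R}

theorem tau_line (D : Necks K) (u θ du dθ : R.Gf → ℝ) (t : ℝ) (k : K) (g : Fin (R.n k + 1)) :
    R.tau D (fun f => u f + t * du f) (fun f => θ f + t * dθ f) ⟨k, g⟩
      = R.tau D u θ ⟨k, g⟩ * Complex.exp (t *
          dlog (R.m k) (fun a => du ⟨k, a⟩) (fun a => dθ ⟨k, a⟩) g) := by
  simp only [Reg.tau, fullGap_line (R.m k), dlog, ← Complex.exp_add]
  congr 1
  push_cast
  ring

theorem U_line (D : Necks K) (u θ du dθ : R.Gf → ℝ) (t : ℝ) (k : K) (i : Fin (R.n k)) :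
    R.U D (R.tau D (fun f => u f + t * du f) (fun f => θ f + t * dθ f)) k i
      = R.U D (R.tau D u θ) k i * Complex.exp (t *
          dpos (R.m k) (fun a => du ⟨k, a⟩) (fun a => dθ ⟨k, a⟩) i) := by
  simp only [Reg.U, tau_line, prod_mul_distrib, ← Complex.exp_sum, ← mul_sum, sum_Iic_dlog]
  ring

theorem V_line (D : Necks K) (u θ du dθ : R.Gf → ℝ) (t : ℝ) (k : K) (i : Fin (R.n k)) :
    R.V D (R.tau D (fun f => u f + t * du f) (fun f => θ f + t * dθ f)) k i
      = R.V D (R.tau D u θ) k i * Complex.exp (t *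
          (-dpos (R.m k) (fun a => du ⟨k, a⟩) (fun a => dθ ⟨k, a⟩) i)) := by
  simp only [Reg.V, tau_line, prod_mul_distrib, ← Complex.exp_sum, ← mul_sum, sum_Ioi_dlog]
  ring

/-- (U - V) / 2 -/
def half (D : Necks K) (τ : R.Gap → ℂ) (k : K) (i : Fin (R.n k)) : ℂ :=
  (R.U D τ k i - R.V D τ k i) / 2

/-- the complex Jacobian matrix of a region, rows = free gaps and core marks -/
def Jm (R : Reg ι K) (D : Necks K) (τ : R.Gap → ℂ) : Matrix (R.Gf ⊕ R.Kc) (R.Gf ⊕ R.Kc) ℂ :=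
  jac R.n R.m (half (R := R) D τ) fun _ => 1

/-- the complex direction of a real direction -/
def om (du dθ : R.Gf → ℝ) (dz : R.Kc → ℂ) : R.Gf ⊕ R.Kc → ℂ :=
  Sum.elim (fun g => -(du g : ℂ) + (dθ g : ℂ) * Complex.I) dz

theorem Jm_inl (D : Necks K) (τ : R.Gap → ℂ) (du dθ : R.Gf → ℝ) (dz : R.Kc → ℂ) (k : K)
    (i : Fin (R.n k)) :
    ∑ r, Jm R D τ r (Sum.inl ⟨k, i⟩) * om du dθ dz r
      = half D τ k i * dpos (R.m k) (fun a => du ⟨k, a⟩) (fun a => dθ ⟨k, a⟩) i := by
  rw [Fintype.sum_sum_type, Fintype.sum_sigma, sum_eq_single k]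
  · simp only [Jm, jac, om, Sum.elim_inl, if_true, zero_mul, sum_const_zero, add_zero, dpos, mul_sum]
    refine sum_congr rfl fun a _ => ?_
    ring
  · intro k' _ hk'
    refine sum_eq_zero fun a _ => ?_
    simp [Jm, jac, hk']
  · intro h; exact absurd (mem_univ k) h

theorem Jm_inr (D : Necks K) (τ : R.Gap → ℂ) (du dθ : R.Gf → ℝ) (dz : R.Kc → ℂ) (c : R.Kc) :
    ∑ r, Jm R D τ r (Sum.inr c) * om du dθ dz r = dz c := by
  rw [Fintype.sum_sum_type]
  simp [Jm, jac, om]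

/-- derivative of the positions along a line -/
theorem xpos_line (D : Necks K) (u θ du dθ : R.Gf → ℝ) (z dz : R.Kc → ℂ) (s : R.Gf ⊕ R.Kc) :
    HasDerivAt (fun t : ℝ => xpos R D
        (R.tau D (fun f => u f + t * du f) (fun f => θ f + t * dθ f))
        (fun c => z c + t * dz c) (eqv R s))
      (∑ r, Jm R D (R.tau D u θ) r s * om du dθ dz r) 0 := by
  rcases s with ⟨k, i⟩ | c
  · simp only [xpos_inl, U_line, V_line, Jm_inl]
    set κ := dpos (R.m k) (fun a => du ⟨k, a⟩) (fun a => dθ ⟨k, a⟩) i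
    have h0 : ∀ w : ℂ, HasDerivAt (fun t : ℝ => Complex.exp ((t : ℂ) * w)) w 0 := by
      intro w
      have h1 : HasDerivAt (fun t : ℝ => (t : ℂ) * w) w 0 := by
        simpa using (Complex.ofRealCLM.hasDerivAt (x := (0 : ℝ))).mul_const w
      have h2 := h1.cexp
      simpa using h2
    have hU := (h0 κ).const_mul (R.U D (R.tau D u θ) k i)
    have hV := (h0 (-κ)).const_mul (R.V D (R.tau D u θ) k i)
    have h := ((hU.add hV).div_const 2).const_add (D.e k)
    refine h.congr_deriv ?_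
    simp only [half]
    ring
  · simp only [xpos_inr, Jm_inr]
    have h1 : HasDerivAt (fun t : ℝ => (t : ℂ) * dz c) (dz c) 0 := by
      simpa using (Complex.ofRealCLM.hasDerivAt (x := (0 : ℝ))).mul_const (dz c)
    simpa using h1.const_add (z c)

end lines

/-! ## The frame identity of a region -/

section frame

variable {P W κ J : Type*} [NormedAddCommGroup P] [NormedSpace ℝ P] [AddCommGroup W] [Module ℝ W]
variable [Fintype κ] [DecidableEq κ]
variable (R : Reg ι K)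

/-- the coordinates ((u, θ), z) of a region -/
abbrev Cd : Type _ := ((R.Gf → ℝ) × (R.Gf → ℝ)) × (R.Kc → ℂ)

/-- the chart (β, ((u, θ), z)) ↦ (β, x) -/
def Psi (D : P → Necks K) (q : P × Cd R) : P × (ι → ℂ) :=
  (q.1, xpos R (D q.1) (R.tau (D q.1) q.2.1.1 q.2.1.2) q.2.2)

/-- the coordinate frame: `-∂_u, ∂_θ` for a free gap, `∂_z, i ∂_z` for a core mark -/
def gfr (s : R.Gf ⊕ R.Kc) (c : Fin 2) : Cd R :=
  match s with
  | Sum.inl g => if c = 0 then ((-Pi.single g 1, 0), 0) else ((0, Pi.single g 1), 0)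
  | Sum.inr d => ((0, 0), Pi.single d (cI c))

/-- the complex direction of a frame vector -/
theorem om_gfr (s : R.Gf ⊕ R.Kc) (c : Fin 2) :
    om (gfr R s c).1.1 (gfr R s c).1.2 (gfr R s c).2 = Pi.single s (cI c) := by
  rcases s with g | d
  · funext r
    rcases r with g' | d'
    · by_cases hg : g' = g
      · subst hg
        fin_cases c <;> simp [gfr, om]
      · have h1 : (Sum.inl g' : R.Gf ⊕ R.Kc) ≠ Sum.inl g := fun h => hg (Sum.inl.inj h)
        fin_cases c <;> simp [gfr, om, Pi.single_eq_of_ne hg, Pi.single_eq_of_ne h1]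
    · fin_cases c <;> simp [gfr, om]
  · funext r
    rcases r with g' | d'
    · simp [gfr, om]
    · by_cases hg : d' = d
      · subst hg
        simp [gfr, om]
      · have h1 : (Sum.inr d' : R.Gf ⊕ R.Kc) ≠ Sum.inr d := fun h => hg (Sum.inr.inj h)
        simp [gfr, om, Pi.single_eq_of_ne hg, Pi.single_eq_of_ne h1]

/-- the vertical complex directions of `P × (ι → ℂ)` -/
def ev (P : Type*) [NormedAddCommGroup P] [NormedSpace ℝ P] (j : ι) : ℂ →ₗ[ℝ] P × (ι → ℂ) :=
  (LinearMap.inr ℝ P (ι → ℂ)).comp (LinearMap.single ℝ (fun _ : ι => ℂ) j)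

theorem ev_apply (j : ι) (z : ℂ) : ev P j z = (0, Pi.single j z) := rfl

theorem vert_ev (x : ι → ℂ) : vert (ev P) x = (0, x) := by
  rw [vert_apply]
  simp only [ev_apply]
  refine Prod.ext ?_ ?_
  · simp [Prod.fst_sum]
  · rw [Prod.snd_sum]
    exact Finset.univ_sum_single x

/-- the Jacobian matrix indexed by the marks -/
def Am (D : Necks K) (τ : R.Gap → ℂ) : Matrix ι ι ℂ :=
  Matrix.reindex (eqv R) (eqv R) (Jm R D τ)

theorem norm_det_Am (D : Necks K) (τ : R.Gap → ℂ) : ‖(Am R D τ).det‖ ^ 2 = R.jac D τ := by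
  rw [Am, Matrix.det_reindex_self, Jm, norm_det_jac, Reg.jac]
  simp only [norm_one, prod_const_one, mul_one, ← prod_pow]
  rfl

variable {R}

/-- the derivative of the chart on vertical directions -/
theorem Psi_vert (D : P → Necks K) (β : P) (u θ : R.Gf → ℝ) (z : R.Kc → ℂ)
    (Ψ' : (P × Cd R) →L[ℝ] (P × (ι → ℂ))) (h : HasFDerivAt (Psi R D) Ψ' (β, ((u, θ), z)))
    (v : Cd R) (s : R.Gf ⊕ R.Kc) :
    (Ψ' (0, v)).1 = 0 ∧ (Ψ' (0, v)).2 (eqv R s)
      = ∑ r, Jm R (D β) (R.tau (D β) u θ) r s * om v.1.1 v.1.2 v.2 r := by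
  have h1 : HasDerivAt (fun t : ℝ => (β, ((u, θ), z)) + t • ((0 : P), v)) ((0 : P), v) 0 := by
    simpa using ((hasDerivAt_id (0 : ℝ)).smul_const ((0 : P), v)).const_add (β, ((u, θ), z))
  have h2 : HasDerivAt (fun t : ℝ => Psi R D ((β, ((u, θ), z)) + t • ((0 : P), v))) (Ψ' (0, v)) 0 := by
    have h3 : HasFDerivAt (Psi R D) Ψ' ((β, ((u, θ), z)) + (0 : ℝ) • ((0 : P), v)) := by
      simpa using h
    exact h3.comp_hasDerivAt (0 : ℝ) h1
  constructor
  · have h4 : HasDerivAt (fun t : ℝ => (Psi R D ((β, ((u, θ), z)) + t • ((0 : P), v))).1)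
        (Ψ' (0, v)).1 0 := by
      have h6 := (ContinuousLinearMap.fst ℝ P (ι → ℂ)).hasFDerivAt.comp_hasDerivAt (0 : ℝ) h2
      exact h6
    have h5 : (fun t : ℝ => (Psi R D ((β, ((u, θ), z)) + t • ((0 : P), v))).1) = fun _ => β := by
      funext t; simp [Psi]
    rw [h5] at h4
    exact h4.unique (hasDerivAt_const _ _)
  · have h4 : HasDerivAt (fun t : ℝ => (Psi R D ((β, ((u, θ), z)) + t • ((0 : P), v))).2 (eqv R s))
        ((Ψ' (0, v)).2 (eqv R s)) 0 := by
      have h6 := (ContinuousLinearMap.snd ℝ P (ι → ℂ)).hasFDerivAt.comp_hasDerivAt (0 : ℝ) h2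
      exact hasDerivAt_pi.1 h6 (eqv R s)
    have h5 : (fun t : ℝ => (Psi R D ((β, ((u, θ), z)) + t • ((0 : P), v))).2 (eqv R s))
        = fun t : ℝ => xpos R (D β) (R.tau (D β) (fun f => u f + t * v.1.1 f)
          (fun f => θ f + t * v.1.2 f)) (fun c => z c + t * v.2 c) (eqv R s) := by
      funext t
      simp only [Psi, Prod.smul_mk, smul_zero, Prod.mk_add_mk, add_zero]
      rfl
    rw [h5] at h4
    exact h4.unique (xpos_line (D β) u θ v.1.1 v.1.2 z v.2 s)

/-- **LIM-R4**: the frame identity of a region -/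
theorem region_frame (D : P → Necks K) (β : P) (u θ : R.Gf → ℝ) (z : R.Kc → ℂ)
    (Ψ' : (P × Cd R) →L[ℝ] (P × (ι → ℂ))) (h : HasFDerivAt (Psi R D) Ψ' (β, ((u, θ), z)))
    (σ : κ ⊕ ι × Fin 2 ≃ J) (Θ : (P × (ι → ℂ)) [⋀^J]→ₗ[ℝ] W) (bv : κ → P) (v : κ → Cd R) :
    Θ (Sum.elim (fun k => Ψ' (bv k, v k)) (fun q => Ψ' (0, gfr R ((eqv R).symm q.1) q.2)) ∘ σ.symm)
      = R.jac (D β) (R.tau (D β) u θ) •
        Θ (Sum.elim (fun k => (bv k, 0)) (fun q => (0, Pi.single q.1 (cI q.2))) ∘ σ.symm) := by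
  have hfst : ∀ w : P × Cd R, (Ψ' w).1 = w.1 := by
    intro w
    have h4 : HasFDerivAt (fun q => (Psi R D q).1)
        ((ContinuousLinearMap.fst ℝ P (ι → ℂ)).comp Ψ') (β, ((u, θ), z)) :=
      hasFDerivAt_fst.comp _ h
    have h5 : (fun q : P × Cd R => (Psi R D q).1) = fun q => q.1 := rfl
    rw [h5] at h4
    have h6 := h4.unique (hasFDerivAt_fst (𝕜 := ℝ) (E := P) (F := Cd R))
    have h7 := congrArg (fun T : (P × Cd R) →L[ℝ] P => T w) h6
    simpa using h7
  have hb : ∀ k, Ψ' (bv k, v k) = (bv k, 0) + vert (ev P) (Ψ' (bv k, v k)).2 := by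
    intro k
    rw [vert_ev]
    refine Prod.ext ?_ ?_
    · simp [hfst]
    · simp
  have hfr : (fun q : ι × Fin 2 => Ψ' (0, gfr R ((eqv R).symm q.1) q.2))
      = fr (chg (Am R (D β) (R.tau (D β) u θ)) (ev P)) := by
    funext q
    obtain ⟨j, c⟩ := q
    rw [fr, chg_apply]
    obtain ⟨s, rfl⟩ := (eqv R).surjective j
    have h1 := fun s' => Psi_vert D β u θ z Ψ' h (gfr R s c) s'
    have h2 : (∑ j, ev P j (Am R (D β) (R.tau (D β) u θ) (eqv R s) j * cI c))
        = (0, fun j => Am R (D β) (R.tau (D β) u θ) (eqv R s) j * cI c) := by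
      rw [← vert_ev, vert_apply]
    simp only [Equiv.symm_apply_apply]
    rw [h2]
    refine Prod.ext (h1 s).1 ?_
    funext j
    obtain ⟨s', rfl⟩ := (eqv R).surjective j
    rw [(h1 s').2, om_gfr, sum_eq_single s]
    · simp [Am]
    · intro r _ hr
      rw [Pi.single_eq_of_ne hr, mul_zero]
    · intro h'; exact absurd (mem_univ s) h'
  have hfe : (fun q : ι × Fin 2 => ((0 : P), (Pi.single q.1 (cI q.2) : ι → ℂ))) = fr (ev P) := rfl
  rw [hfr, hfe, frame_eq σ Θ (ev P) (Am R (D β) (R.tau (D β) u θ)) (fun k => (bv k, 0))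
    (fun k => Ψ' (bv k, v k)) (fun k => (Ψ' (bv k, v k)).2) hb, norm_det_Am]

end frame

end Vale.Agent.P273.H793
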