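import Vale.Agent.P273.H573.Skel
import Vale.Agent.P273.H724.RegAn
import Vale.Agent.P273.H182.WfChg
import Vale.Agent.P273.H887.WfChg

/-!
# P273, LimFib, part 1: the integrand of a region

* `rts_rootsL`: the curve of the roots `rootsL`;
* `hasFDerivAt_posE`, `differentiable_rtp`;
* `OmR_eq`: the integrand of a region is the pull-back of the integrand of `PhiF`, at every point of
  the closed region (also at the roots and at the coincidences, where both sides are zero).
-/

set_option linter.unusedSectionVars false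
set_option linter.unusedSimpArgs false

noncomputable section

namespace Vale.Agent.P273.H793

open Set Filter MeasureTheory H95 H732 H562 H573
open Vale.P273.H887 (Qf ρ cf shSet GR_eq comp_comp hasFDerivAt_ρ)
open Vale.Agent.P273.H681 (C6 XX)
open Vale.Agent.P273.H973 (wedgeT wedgeT_comp wedgeT_eq_zero_of_zero wedgeT_eq_zero_of_eq SymAt)
open scoped Topology ContDiff

/-! ### the roots -/

theorem eps_sq (y a : ℝ) :
    ((1 / 16 : ℂ) * Complex.exp ((-(y : ℂ) + (a : ℂ) * Complex.I) / 2)) ^ 2 =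
      (1 / 16) ^ 2 * Complex.exp (-(y : ℂ) + (a : ℂ) * Complex.I) := by
  rw [mul_pow, ← Complex.exp_nat_mul]
  congr 2
  push_cast
  ring

theorem pair_poly (e d : ℂ) :
    (Polynomial.X - Polynomial.C (e - d)) * (Polynomial.X - Polynomial.C (e + d)) =
      (Polynomial.X - Polynomial.C e) ^ 2 - Polynomial.C (d ^ 2) := by
  simp only [Polynomial.C_sub, Polynomial.C_add, Polynomial.C_pow]
  ring

theorem rts_th (d : Fin 3 → ℂ) : rts (H828.th d) = thA fun k => d k ^ 2 := by
  funext i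
  rw [rts, thA]
  congr 1
  rw [Fin.prod_univ_six, Fin.prod_univ_three, ← pair_poly, ← pair_poly, ← pair_poly]
  have e0 : ctr 0 = 3 / 2 := by simp [ctr]
  have e1 : ctr 1 = 7 / 2 := by simp [ctr]; norm_num
  have e2 : ctr 2 = 11 / 2 := by simp [ctr]; norm_num
  rw [e0, e1, e2]
  have f0 : H828.th d 0 = 3 / 2 - d 0 := rfl
  have f1 : H828.th d 1 = 3 / 2 + d 0 := rfl
  have f2 : H828.th d 2 = 7 / 2 - d 1 := rfl
  have f3 : H828.th d 3 = 7 / 2 + d 1 := rfl
  have f4 : H828.th d 4 = 11 / 2 - d 2 := rfl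
  have f5 : H828.th d 5 = 11 / 2 + d 2 := rfl
  rw [f0, f1, f2, f3, f4, f5]
  ring

theorem rts_rootsL (y α : Fin 3 → ℝ) : rts (rootsL y α) = thA (epsL y α) := by
  rw [rootsL, rts_th]
  congr 1
  funext k
  exact eps_sq (y k) (α k)

theorem contDiff_rtp : ContDiff ℝ ∞ rtp := by
  rw [contDiff_pi]
  intro i
  have h : ∀ k : Fin 3, ContDiff ℝ ∞ fun q : (Fin 3 → ℝ) × (Fin 3 → ℝ) =>
      (1 / 16 : ℂ) * Complex.exp ((-(q.1 k : ℂ) + (q.2 k : ℂ) * Complex.I) / 2) := by
    intro k
    have h1 : ContDiff ℝ ∞ fun q : (Fin 3 → ℝ) × (Fin 3 → ℝ) => ((q.1 k : ℝ) : ℂ) :=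
      Complex.ofRealCLM.contDiff.comp ((contDiff_apply ℝ ℝ k).comp contDiff_fst)
    have h2 : ContDiff ℝ ∞ fun q : (Fin 3 → ℝ) × (Fin 3 → ℝ) => ((q.2 k : ℝ) : ℂ) :=
      Complex.ofRealCLM.contDiff.comp ((contDiff_apply ℝ ℝ k).comp contDiff_snd)
    exact contDiff_const.mul (((h1.neg.add (h2.mul contDiff_const)).div_const 2).cexp)
  have h0 := h 0
  have h1 := h 1
  have h2 := h 2
  fin_cases i
  · exact contDiff_const.sub h0
  · exact contDiff_const.add h0
  · exact contDiff_const.sub h1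
  · exact contDiff_const.add h1
  · exact contDiff_const.sub h2
  · exact contDiff_const.add h2

theorem differentiableAt_rtp (q) : DifferentiableAt ℝ rtp q :=
  (contDiff_rtp.differentiable (by simp)) q

section Region

variable (R : Region) (m : ∀ k, Fin (R.n k + 1))

theorem hasFDerivAt_emb (p : Co R m) :
    HasFDerivAt (emb R m) ((H732.scl R).comp ((W R m).dpsi p)) p :=
  (H732.scl R).hasFDerivAt.comp p ((W R m).hasFDerivAt_psi p)

theorem differentiableAt_Rpsi (q : R.Sp) : DifferentiableAt ℝ R.psi q :=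
  (H724.an_psi (p := q)).differentiableAt.restrictScalars ℝ

theorem differentiableAt_Rpos (q : R.Sp) : DifferentiableAt ℝ R.pos q :=
  (differentiableAt_Rpsi R q).snd

/-- the base coordinates -/
def bsE : Co R m →L[ℝ] (Fin 3 → ℝ) × (Fin 3 → ℝ) :=
  ((ContinuousLinearMap.fst ℝ _ _).comp ((ContinuousLinearMap.snd ℝ _ _).comp
    (ContinuousLinearMap.snd ℝ _ _))).prod
  ((ContinuousLinearMap.fst ℝ _ _).comp ((ContinuousLinearMap.snd ℝ _ _).comp
    ((ContinuousLinearMap.snd ℝ _ _).comp (ContinuousLinearMap.snd ℝ _ _))))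

theorem bsE_apply (p : Co R m) : bsE R m p = (p.2.2.1, p.2.2.2.1) := rfl

theorem differentiableAt_posE (p : Co R m) : DifferentiableAt ℝ (posE R m) p := by
  refine DifferentiableAt.prodMk ?_ ?_
  · exact (differentiableAt_rtp (bsE R m p)).comp p (bsE R m).differentiableAt
  · exact (differentiableAt_Rpos R _).comp p (hasFDerivAt_emb R m p).differentiableAt

theorem Rpsi_emb (p : Co R m) : R.psi (emb R m p) = ρ (posE R m p) := by
  refine Prod.ext ?_ rfl
  change thA (R.eps (emb R m p)) = rts (rootsL p.2.2.1 p.2.2.2.1)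
  rw [rts_rootsL]
  congr 1
  funext k
  exact eps_scl_psi R m p k

theorem FR_eq (X : Ext) {S : L → Bool} (hS : FarOk R S) {p : Co R m}
    (hd : emb R m p ∈ R.dom S) (hs : R.isStd S (emb R m p)) :
    FR R m X S p =
      (GR X.G S (posE R m p) (shE R m S p)).compContinuousLinearMap (fderiv ℝ (posE R m) p) := by
  have h1 : X.H R S (emb R m p) =
      (X.G S (R.psi (emb R m p)) (R.sht S (emb R m p))).compContinuousLinearMap
        (fderiv ℝ R.psi (emb R m p)) := X.hext R S hS _ hd hs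
  have h2 : (fderiv ℝ R.psi (emb R m p)).comp ((H732.scl R).comp ((W R m).dpsi p)) =
      (fderiv ℝ ρ (posE R m p)).comp (fderiv ℝ (posE R m) p) := by
    have h3 : HasFDerivAt (fun p => R.psi (emb R m p))
        ((fderiv ℝ R.psi (emb R m p)).comp ((H732.scl R).comp ((W R m).dpsi p))) p :=
      (differentiableAt_Rpsi R _).hasFDerivAt.comp p (hasFDerivAt_emb R m p)
    have h4 : HasFDerivAt (fun p => ρ (posE R m p))
        ((fderiv ℝ ρ (posE R m p)).comp (fderiv ℝ (posE R m) p)) p :=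
      (hasFDerivAt_ρ _).differentiableAt.hasFDerivAt.comp p
        (differentiableAt_posE R m p).hasFDerivAt
    have h5 : (fun p => R.psi (emb R m p)) = fun p => ρ (posE R m p) :=
      funext fun p => Rpsi_emb R m p
    rw [h5] at h3
    exact h3.unique h4
  rw [FR, h1, GR_eq, comp_comp, comp_comp, h2, Rpsi_emb]
  rfl

variable {R m}

/-- equality of the products between two ranks -/
theorem neck_same {S : L → Bool} (hS : FarOk R S) {q : R.Sp} {i j : L} {k : Fin 3}
    (hi : R.pl i = Sum.inl k) (hj : R.pl j = Sum.inl k) (hr : R.rk i < R.rk j)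
    (h : ∏ g : Fin (R.n k + 1), (if R.rk i < (g : ℕ) ∧ (g : ℕ) ≤ R.rk j then q.1 ⟨k, g⟩ else 1)
      = 1) : Same (S i) (R.pos q i) (R.sht S q i) (S j) (R.pos q j) (R.sht S q j) := by
  have h1 : R.XX q k (R.rk j) = R.XX q k (R.rk i) := by
    have e : R.XX q k (R.rk j) = R.XX q k (R.rk i) *
        ∏ g : Fin (R.n k + 1), (if R.rk i < (g : ℕ) ∧ (g : ℕ) ≤ R.rk j then q.1 ⟨k, g⟩ else 1) := by
      rw [Region.XX, Region.XX, ← Finset.prod_mul_distrib]
      refine Finset.prod_congr rfl fun g _ => ?_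
      by_cases h1 : (g : ℕ) ≤ R.rk i
      · have h2 : (g : ℕ) ≤ R.rk j := h1.trans hr.le
        have h3 : ¬ (R.rk i < (g : ℕ) ∧ (g : ℕ) ≤ R.rk j) := fun h => absurd h1 (not_le.2 h.1)
        simp [h1, h2, h3]
      · by_cases h2 : (g : ℕ) ≤ R.rk j
        · have h3 : R.rk i < (g : ℕ) ∧ (g : ℕ) ≤ R.rk j := ⟨not_le.1 h1, h2⟩
          simp [h1, h2, h3]
        · have h3 : ¬ (R.rk i < (g : ℕ) ∧ (g : ℕ) ≤ R.rk j) := fun h => h2 h.2
          simp [h1, h2, h3]
    rw [e, h, mul_one]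
  have h2 : R.YY q k (R.rk i) = R.YY q k (R.rk j) := by
    have e : R.YY q k (R.rk i) = R.YY q k (R.rk j) *
        ∏ g : Fin (R.n k + 1), (if R.rk i < (g : ℕ) ∧ (g : ℕ) ≤ R.rk j then q.1 ⟨k, g⟩ else 1) := by
      rw [Region.YY, Region.YY, ← Finset.prod_mul_distrib]
      refine Finset.prod_congr rfl fun g _ => ?_
      by_cases h1 : R.rk i < (g : ℕ)
      · by_cases h2 : R.rk j < (g : ℕ)
        · have h3 : ¬ (R.rk i < (g : ℕ) ∧ (g : ℕ) ≤ R.rk j) := fun h => absurd h.2 (not_le.2 h2)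
          simp [h1, h2, h3]
        · have h3 : R.rk i < (g : ℕ) ∧ (g : ℕ) ≤ R.rk j := ⟨h1, not_lt.1 h2⟩
          simp [h1, h2, h3]
      · have h2 : ¬ R.rk j < (g : ℕ) := fun h2 => h1 (hr.trans h2)
        have h3 : ¬ (R.rk i < (g : ℕ) ∧ (g : ℕ) ≤ R.rk j) := fun h => h1 h.1
        simp [h1, h2, h3]
    rw [e, h, mul_one]
  have hSf : ∀ l : L, ∀ k : Fin 3, R.pl l = Sum.inl k → S l = false := by
    intro l k hl
    by_contra hc
    have := hS l (by simpa using hc)
    rw [hl] at this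
    exact absurd this (by simp)
  have h3 : R.pos q i = R.pos q j := by
    rw [pos_neck R q hi, pos_neck R q hj, h1, h2]
  have h4 : R.sht S q i = R.sht S q j := by
    rw [sht_neck R S q hi, sht_neck R S q hj, h3, h1, h2]
  unfold Same
  rw [hSf i k hi, hSf j k hj, h3, h4]
  simp

theorem mem_dom_of_sep {S : L → Bool} (hS : FarOk R S) {q : R.Sp} (h0 : q ∈ H975.U0 R S)
    (hsep : H95.Sep S (R.pos q) (R.sht S q)) : q ∈ R.dom S := by
  refine ⟨h0.1, h0.2.1, h0.2.2, fun i j hij ht _ => hsep i j hij ht, ?_⟩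
  intro i j k hi hj ht hr h
  refine hsep i j ?_ ht (neck_same hS hi hj hr h)
  rintro rfl
  exact lt_irrefl _ hr

theorem gap_ne (p : Co R m) (g : R.Gap) : (emb R m p).1 g ≠ 0 := by
  rw [emb, scl_apply]
  exact mul_ne_zero (cw_ne_zero R g) (Complex.exp_ne_zero _)

/-- **the integrand of a region is the pull-back of the integrand of `PhiF`** -/
theorem OmR_eq (X : Ext) (Θ : Gauge) {T : MT} (hT : SymT T) {S : L → Bool} (hS : FarOk R S)
    {p : Co R m} (hX : rootsL p.2.2.1 p.2.2.2.1 ∈ XX) (h0 : emb R m p ∈ H975.U0 R S)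
    (hv : ∀ j, shE R m S p j ^ 2 = pol (S j) (rts (posE R m p).1) ((posE R m p).2 j)) :
    OmR R m X Θ T S p = (Qf X Θ T S (posE R m p) (shE R m S p)).compContinuousLinearMap
      (fderiv ℝ (posE R m) p) := by
  by_cases h : OnC S (rts (posE R m p).1) (posE R m p).2 (shE R m S p) ∧
      H95.Sep S (posE R m p).2 (shE R m S p)
  · have hd : emb R m p ∈ R.dom S := mem_dom_of_sep hS h0 h.2
    have hs : R.isStd S (emb R m p) := ⟨fun k _ g => gap_ne p ⟨k, g⟩, fun j => (h.1 j).2⟩
    rw [OmR, FR_eq R m X hS hd hs, Qf, wedgeT_comp]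
    rfl
  · have h1 : Qf X Θ T S (posE R m p) (shE R m S p) = 0 := H182.term_eq_zero Θ hT hX hv h _
    have h2 : OmR R m X Θ T S p = 0 := by
      rw [OmR]
      by_cases h3 : ∀ j, shE R m S p j ≠ 0
      · have hon : OnC S (rts (posE R m p).1) (posE R m p).2 (shE R m S p) :=
          fun j => ⟨hv j, h3 j⟩
        have hs : ¬ H95.Sep S (posE R m p).2 (shE R m S p) := fun hs => h ⟨hon, hs⟩
        simp only [H95.Sep, not_forall, not_not] at hs
        obtain ⟨i, j, hij, h2, hsame⟩ := hs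
        obtain ⟨a, rfl⟩ := H182.mrk_surj i
        obtain ⟨b, rfl⟩ := H182.mrk_surj j
        have hab : a ≠ b := fun h => hij (by rw [h])
        refine wedgeT_eq_zero_of_eq _ hab (hT a b h2) ?_
        rw [thR, thR, H182.th_col Θ hX hon hij h2 hsame]
      · simp only [not_forall, not_not] at h3
        obtain ⟨j, hj⟩ := h3
        obtain ⟨a, rfl⟩ := H182.mrk_surj j
        refine wedgeT_eq_zero_of_zero _ T (a := a) ?_
        rw [thR, H182.th_root Θ hX hv hj]
        rfl
    rw [h1, h2]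
    rfl

end Region

end Vale.Agent.P273.H793
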