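import Vale.Agent.P273.H793.LfA
import Vale.Agent.P273.H793.FrameR
import Vale.Agent.P273.H732.Conv3

/-!
# P273, LimFib, part 2: coordinates and frames

* `uns : Fin 30 → Fin 2 ⊕ L × Fin 2`, the order of the slots;
* `coL`: base and fibre coordinates of 852 to the coordinates of the chart;
* `coL_gfr`: the frame of 852's region is the frame `fr` of the chart;
* `hasFDerivAt_PsiE`: derivative of 852's chart.
-/

set_option linter.unusedSectionVars false
set_option linter.unusedSimpArgs false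

noncomputable section

namespace Vale.Agent.P273.H793

open Set Filter MeasureTheory H95 H732 H562 H573
open Vale.Agent.P273.H681 (C6 XX)
open scoped Topology ContDiff

/-! ### the order of the slots -/

/-- the slots: first the marks, then the base -/
def uns : Fin (28 + 2) → Fin 2 ⊕ L × Fin 2 :=
  Fin.addCases (fun a => Sum.inr (mrk ⟨a / 2, by omega⟩, if (a : ℕ) % 2 = 0 then 0 else 1))
    (fun i => Sum.inl i)

theorem uns_bijective : Function.Bijective uns := by
  rw [Fintype.bijective_iff_injective_and_card]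
  constructor
  · decide +kernel
  · decide +kernel

/-- the same as an equivalence -/
def sgE : Fin 2 ⊕ L × Fin 2 ≃ Fin (28 + 2) := (Equiv.ofBijective uns uns_bijective).symm

theorem elim_sgE {V : Type*} (A : Fin 2 → V) (B : L × Fin 2 → V) :
    Sum.elim A B ∘ sgE.symm = Fin.append
      (fun a : Fin 28 => B (mrk ⟨a / 2, by omega⟩, if (a : ℕ) % 2 = 0 then 0 else 1)) A := by
  funext l
  have h : (sgE.symm : Fin (28 + 2) → _) = uns := rfl
  rw [h]
  refine Fin.addCases (fun a => ?_) (fun a => ?_) l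
  · simp [uns]
  · simp [uns]

theorem vec_eq (w : Fin 2 → C6) : H811.vec vb w =
    Sum.elim (fun k => (w k, (0 : L → ℂ))) (fun q => ((0 : C6), Pi.single q.1 (cI q.2)))
      ∘ sgE.symm := by
  rw [elim_sgE]
  unfold H811.vec
  congr 1
  funext a
  refine Prod.ext rfl ?_
  change vb a = _
  unfold vb cI
  congr 1
  split_ifs <;> simp_all

/-! ### coordinates -/

section Co852

variable (R : H852.Reg L (Fin 3))

/-- base and fibre coordinates to the coordinates of the chart -/
def coL : (((Fin 3 → ℝ) × (Fin 3 → ℝ)) × Cd R) →L[ℝ] Co (to95 R) (m95 R) :=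
  LinearMap.toContinuousLinearMap
    { toFun := fun x => coE R x.1.1 x.1.2 x.2
      map_add' := fun _ _ => rfl
      map_smul' := fun _ _ => rfl }

theorem coL_apply (x : ((Fin 3 → ℝ) × (Fin 3 → ℝ)) × Cd R) :
    coL R x = coE R x.1.1 x.1.2 x.2 := rfl

/-- the fibre coordinates -/
def coR (p : Co (to95 R) (m95 R)) : Cd R :=
  ((fun g => p.1 (gfE R g), fun g => p.2.1 (gfE R g)), fun c => p.2.2.2.2 (kcE R c))

theorem coL_coR (p : Co (to95 R) (m95 R)) : coL R ((p.2.2.1, p.2.2.2.1), coR R p) = p := by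
  rw [coL_apply]
  unfold coE coR
  simp only [Equiv.apply_symm_apply]

theorem eqv_symm_neck {j : L} {k : Fin 3} (h : R.A j = Sum.inl k) :
    (eqv R).symm j = Sum.inl ⟨k, (R.ord k).symm ⟨j, h⟩⟩ := by
  rw [Equiv.symm_apply_eq, eqv_inl]
  simp

theorem eqv_symm_core {j : L} {b : Bool} (h : R.A j = Sum.inr b) :
    (eqv R).symm j = Sum.inr ⟨j, fun k hk => by simp [hk] at h⟩ := by
  rw [Equiv.symm_apply_eq, eqv_inr]

theorem fr_neck {R : Region} {m : ∀ k, Fin (R.n k + 1)} {j : L} {k : Fin 3}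
    (h : R.pl j = Sum.inl k) (c : Bool) : H573.fr R m j c =
      if c then (W R m).vec (.ph (frE R.n m ⟨k, rkF R h⟩))
      else -(W R m).vec (.u (frE R.n m ⟨k, rkF R h⟩)) := by
  unfold H573.fr
  split
  · rename_i k' h'
    have : k' = k := Sum.inl.inj (h'.symm.trans h)
    subst this
    rfl
  · rename_i s h'
    rw [h] at h'
    cases h'

theorem fr_core {R : Region} {m : ∀ k, Fin (R.n k + 1)} {j : L} {b : Bool}
    (h : R.pl j = Sum.inr b) (c : Bool) : H573.fr R m j c =
      if c then (W R m).vec (.im ⟨j, by simp [h]⟩) else (W R m).vec (.re ⟨j, by simp [h]⟩) := by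
  unfold H573.fr
  split
  · rename_i k' h'
    rw [h] at h'
    cases h'
  · rfl

/-- **the frames agree** -/
theorem coL_gfr (j : L) (c : Fin 2) : coL R (0, gfr R ((eqv R).symm j) c) =
    H573.fr (to95 R) (m95 R) j (decide (c = 1)) := by
  rcases h : R.A j with k | b
  · have hp : (to95 R).pl j = Sum.inl k := h
    have hg : gfE R ⟨k, (R.ord k).symm ⟨j, h⟩⟩ = frE _ (m95 R) ⟨k, rkF (to95 R) hp⟩ := by
      change frE _ (m95 R) ⟨k, _⟩ = _
      congr 2
      exact Fin.ext (rk852_neck R h).symm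
    have hs : ∀ x : ℝ, (fun f => (Pi.single (⟨k, (R.ord k).symm ⟨j, h⟩⟩ : R.Gf) x : R.Gf → ℝ)
        ((gfE R).symm f)) = Pi.single (frE _ (m95 R) ⟨k, rkF (to95 R) hp⟩) x := by
      intro x
      rw [← hg]
      funext f
      obtain ⟨g, rfl⟩ := (gfE R).surjective f
      rw [Equiv.symm_apply_apply]
      by_cases hgg : g = ⟨k, (R.ord k).symm ⟨j, h⟩⟩
      · subst hgg; simp
      · rw [Pi.single_eq_of_ne hgg, Pi.single_eq_of_ne fun h' => hgg ((gfE R).injective h')]
    rw [eqv_symm_neck R h, fr_neck hp, coL_apply]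
    fin_cases c
    · simp only [gfr, coE, if_true]
      refine Prod.ext ?_ (Prod.ext ?_ (Prod.ext ?_ (Prod.ext ?_ ?_)))
      · funext f
        have := congrFun (hs 1) f
        change -(Pi.single _ (1 : ℝ) : R.Gf → ℝ) ((gfE R).symm f) = -(Pi.single _ (1 : ℝ) : _ → ℝ) f
        rw [this]
      · funext f; simp [H732.Reg.vec]
      · funext f; simp [H732.Reg.vec]
      · funext f; simp [H732.Reg.vec]
      · funext f; simp [H732.Reg.vec]
    · simp only [gfr, coE]
      refine Prod.ext ?_ (Prod.ext ?_ (Prod.ext ?_ (Prod.ext ?_ ?_)))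
      · funext f; simp [H732.Reg.vec]
      · exact hs 1
      · funext f; simp [H732.Reg.vec]
      · funext f; simp [H732.Reg.vec]
      · funext f; simp [H732.Reg.vec]
  · have hp : (to95 R).pl j = Sum.inr b := h
    have hs : ∀ x : ℂ, (fun d => (Pi.single (⟨j, fun k hk => by simp [hk] at h⟩ : R.Kc) x :
        R.Kc → ℂ) ((kcE R).symm d)) = Pi.single (⟨j, by simp [hp]⟩ : (to95 R).Cm) x := by
      intro x
      funext f
      obtain ⟨g, rfl⟩ := (kcE R).surjective f
      rw [Equiv.symm_apply_apply]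
      by_cases hgg : g = ⟨j, fun k hk => by simp [hk] at h⟩
      · subst hgg
        rw [Pi.single_eq_same]
        exact (Pi.single_eq_same (M := fun _ : (to95 R).Cm => ℂ)
          (⟨j, by simp [hp]⟩ : (to95 R).Cm) x).symm
      · have hgg' : kcE R g ≠ (⟨j, by simp [hp]⟩ : (to95 R).Cm) := by
          intro h'
          have h2 : (kcE R g).1 = j := congrArg Subtype.val h'
          exact hgg (Subtype.ext h2)
        rw [Pi.single_eq_of_ne hgg, Pi.single_eq_of_ne hgg']
    rw [eqv_symm_core R h, fr_core hp, coL_apply]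
    fin_cases c
    · refine Prod.ext ?_ (Prod.ext ?_ (Prod.ext ?_ (Prod.ext ?_ ?_)))
      · funext f; simp [H732.Reg.vec, gfr, coE]
      · funext f; simp [H732.Reg.vec, gfr, coE]
      · funext f; simp [H732.Reg.vec, gfr, coE]
      · funext f; simp [H732.Reg.vec, gfr, coE]
      · exact hs 1
    · refine Prod.ext ?_ (Prod.ext ?_ (Prod.ext ?_ (Prod.ext ?_ ?_)))
      · funext f; simp [H732.Reg.vec, gfr, coE]
      · funext f; simp [H732.Reg.vec, gfr, coE]
      · funext f; simp [H732.Reg.vec, gfr, coE]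
      · funext f; simp [H732.Reg.vec, gfr, coE]
      · exact hs Complex.I

/-! ### the derivative of 852's chart -/

/-- base coordinates -/
abbrev Bs3 : Type := (Fin 3 → ℝ) × (Fin 3 → ℝ)

/-- 852's necks at the theta point -/
def Dth (β : Bs3) : H852.Necks (Fin 3) := nd β.1 β.2

theorem xpos_eq (x : Bs3 × Cd R) :
    xpos R (Dth x.1) (R.tau (Dth x.1) x.2.1.1 x.2.1.2) x.2.2 =
      (posE (to95 R) (m95 R) (coL R x)).2 := by
  funext j
  exact congrArg Prod.fst (pos852 R x.1.1 x.1.2 x.2 j)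

theorem Psi_eq (x : Bs3 × Cd R) :
    Psi R Dth x = (x.1, (posE (to95 R) (m95 R) (coL R x)).2) :=
  Prod.ext rfl (xpos_eq R x)

/-- the derivative of 852's chart -/
def PsiD (x : Bs3 × Cd R) : (Bs3 × Cd R) →L[ℝ] (Bs3 × (L → ℂ)) :=
  (ContinuousLinearMap.fst ℝ Bs3 (Cd R)).prod
    (((ContinuousLinearMap.snd ℝ C6 (L → ℂ)).comp
      (fderiv ℝ (posE (to95 R) (m95 R)) (coL R x))).comp (coL R))

theorem PsiD_apply (x v : Bs3 × Cd R) :
    PsiD R x v = (v.1, (fderiv ℝ (posE (to95 R) (m95 R)) (coL R x) (coL R v)).2) := rfl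

theorem hasFDerivAt_posE_coL (x : Bs3 × Cd R) :
    HasFDerivAt (fun x => posE (to95 R) (m95 R) (coL R x))
      ((fderiv ℝ (posE (to95 R) (m95 R)) (coL R x)).comp (coL R)) x :=
  (differentiableAt_posE _ _ _).hasFDerivAt.comp x (coL R).hasFDerivAt

theorem hasFDerivAt_PsiE (x : Bs3 × Cd R) : HasFDerivAt (Psi R Dth) (PsiD R x) x := by
  have h1 : Psi R Dth = fun x => (x.1, (posE (to95 R) (m95 R) (coL R x)).2) :=
    funext fun x => Psi_eq R x
  rw [h1]
  exact hasFDerivAt_fst.prodMk (hasFDerivAt_posE_coL R x).snd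

theorem fderiv_posE_coL (x v : Bs3 × Cd R) :
    fderiv ℝ (posE (to95 R) (m95 R)) (coL R x) (coL R v) =
      (fderiv ℝ rtp x.1 v.1, (PsiD R x v).2) := by
  refine Prod.ext ?_ rfl
  have h1 : HasFDerivAt (fun x : Bs3 × Cd R => (posE (to95 R) (m95 R) (coL R x)).1)
      ((ContinuousLinearMap.fst ℝ C6 (L → ℂ)).comp
        ((fderiv ℝ (posE (to95 R) (m95 R)) (coL R x)).comp (coL R))) x :=
    (hasFDerivAt_posE_coL R x).fst
  have h2 : HasFDerivAt (fun x : Bs3 × Cd R => rtp x.1)
      ((fderiv ℝ rtp x.1).comp (ContinuousLinearMap.fst ℝ Bs3 (Cd R))) x :=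
    (differentiableAt_rtp x.1).hasFDerivAt.comp x hasFDerivAt_fst
  have h3 : (fun x : Bs3 × Cd R => (posE (to95 R) (m95 R) (coL R x)).1) =
      fun x : Bs3 × Cd R => rtp x.1 := rfl
  rw [h3] at h1
  have h4 := h1.unique h2
  exact congrArg (fun A : (Bs3 × Cd R) →L[ℝ] C6 => A v) h4

end Co852

end Vale.Agent.P273.H793
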