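import Vale.Agent.P273.H793.LfB
import Vale.Agent.P273.H793.FibQ
import Vale.Agent.P273.H852.Far

/-!
# P273, LimFib, part 3: the pointwise identity

`point_eq`: the integrand of a region on the frame of the chart is the Jacobian times the integrand of
`PhiF` at the position of the marks.
-/

set_option linter.unusedSectionVars false
set_option linter.unusedSimpArgs false

noncomputable section

namespace Vale.Agent.P273.H793

open Set Filter MeasureTheory H95 H732 H562 H573
open Vale.P273.H887 (Qf ρ cf shSet)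
open Vale.Agent.P273.H681 (C6 XX)
open Vale.Agent.P273.H852 (fden finv)
open Vale.Agent.P273.H852.Necks (zden zinv)
open scoped Topology ContDiff

/-! ### diagonal changes of the vertical frame -/

/-- the frame with factors -/
theorem diag_frame (Th : F30) (d : L → ℂ) (w : Fin 2 → C6) :
    Th (Sum.elim (fun k => (w k, (0 : L → ℂ)))
      (fun q => ((0 : C6), (Pi.single q.1 (d q.1 * cI q.2) : L → ℂ))) ∘ sgE.symm) =
      (∏ j, ‖d j‖ ^ 2) * Th (H811.vec vb w) := by
  have h := frame_eq (W := ℝ) sgE Th.toAlternatingMap (ev C6 (ι := L)) (Matrix.diagonal d)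
    (fun k => (w k, (0 : L → ℂ))) (fun k => (w k, (0 : L → ℂ))) (fun _ => 0) (by
      intro k
      rw [map_zero, add_zero])
  rw [Matrix.det_diagonal, norm_prod] at h
  have h1 : (fun q : L × Fin 2 => ((0 : C6), (Pi.single q.1 (d q.1 * cI q.2) : L → ℂ))) =
      fr (chg (Matrix.diagonal d) (ev C6 (ι := L))) := by
    funext q
    rw [fr, chg_apply, Finset.sum_eq_single q.1]
    · rw [Matrix.diagonal_apply_eq]
      rfl
    · intro j _ hj
      rw [Matrix.diagonal_apply_ne _ (Ne.symm hj), zero_mul, map_zero]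
    · intro h'; exact absurd (Finset.mem_univ _) h'
  have h2 : (fun q : L × Fin 2 => ((0 : C6), (Pi.single q.1 (cI q.2) : L → ℂ))) =
      fr (ev C6 (ι := L)) := rfl
  rw [h1, vec_eq, h2, Finset.prod_pow]
  exact h

/-- the derivative of the change of charts -/
theorem flip_deriv {S : L → Bool} {e : E} (hz : ∀ j, S j ≠ S0 j → e.2 j ≠ 0) (u : E) :
    fderiv ℝ (H95.flip S S0) e u =
      (u.1, fun j => (if S j = true then -((e.2 j) ^ 2)⁻¹ else 1) * u.2 j) := by
  set F : Finset L := Finset.univ.filter fun j => S j = true with hF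
  have hm : ∀ j, j ∈ F ↔ S j = true := fun j => by simp [hF]
  have h1 : H95.flip S S0 = fun p : E => (p.1, H811.inv F p.2) := by
    funext p
    refine Prod.ext rfl ?_
    funext j
    change (if S j = S0 j then p.2 j else (p.2 j)⁻¹) = if j ∈ F then (p.2 j)⁻¹ else p.2 j
    by_cases h : S j = true
    · have h' : ¬ S j = S0 j := by rw [h]; simp [S0]
      rw [if_neg h', if_pos ((hm j).2 h)]
    · have h' : S j = S0 j := by simpa [S0] using h
      rw [if_pos h', if_neg fun h2 => h ((hm j).1 h2)]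
  have h2 : ∀ j ∈ F, e.2 j ≠ 0 := fun j hj => hz j (by
    rw [(hm j).1 hj]; simp [S0])
  have h3 := H811.hasFDerivAt_Inv F e.1 e.2 h2
  rw [h1, h3.fderiv, H811.Dinv_apply]
  refine Prod.ext rfl ?_
  funext j
  change H811.dinv F e.2 u.2 j = (if S j = true then -((e.2 j) ^ 2)⁻¹ else 1) * u.2 j
  rw [H811.dinv_apply]
  by_cases h : S j = true
  · rw [if_pos ((hm j).2 h), if_pos h]
  · rw [if_neg fun h2 => h ((hm j).1 h2), if_neg h]

/-- change of charts on the frame -/
theorem flip_frame (Th : F30) {S : L → Bool} {e : E} (hz : ∀ j, S j ≠ S0 j → e.2 j ≠ 0)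
    (w : Fin 2 → C6) :
    Th (fun l => fderiv ℝ (H95.flip S S0) e (H811.vec vb w l)) =
      (∏ j, if S j = true then ‖e.2 j‖⁻¹ ^ 4 else 1) * Th (H811.vec vb w) := by
  have h := diag_frame Th (fun j => if S j = true then -((e.2 j) ^ 2)⁻¹ else 1) w
  have h1 : ∀ j, ‖(if S j = true then -((e.2 j) ^ 2)⁻¹ else 1 : ℂ)‖ ^ 2 =
      if S j = true then ‖e.2 j‖⁻¹ ^ 4 else 1 := by
    intro j
    split_ifs
    · rw [norm_neg, norm_inv, norm_pow, inv_pow, ← pow_mul, inv_pow]
    · simp
  simp only [h1] at h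
  rw [← h]
  congr 1
  rw [vec_eq]
  funext l
  simp only [Function.comp]
  rw [flip_deriv hz]
  rcases sgE.symm l with k | q
  · refine Prod.ext rfl ?_
    funext j
    simp
  · refine Prod.ext rfl ?_
    funext j
    simp only [Sum.elim_inr]
    by_cases hj : j = q.1
    · subst hj; simp
    · rw [Pi.single_eq_of_ne hj, Pi.single_eq_of_ne hj, mul_zero]

/-- change of charts for a good form -/
theorem chart_id {Q : (L → Bool) → E → (L → ℂ) → F30} (hQ : GoodQ Q) {S : L → Bool} {e : E}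
    {v : L → ℂ} (he : e.1 ∈ XX) (hz : ∀ j, S j ≠ S0 j → e.2 j ≠ 0) (hv : v ∈ shSet (cf S e))
    (w : Fin 2 → C6) : Q S e v (H811.vec vb w) =
      (∏ j, if S j = true then ‖e.2 j‖⁻¹ ^ 4 else 1) *
        Q S0 (H95.flip S S0 e) (flipv S S0 e.2 v) (H811.vec vb w) := by
  rw [hQ.chg S S0 e he hz v hv]
  exact flip_frame (Q S0 (H95.flip S S0 e) (flipv S S0 e.2 v)) hz w

/-- the value at a position given by a change of charts -/
theorem fv_flip (Q : (L → Bool) → E → (L → ℂ) → F30) {S : L → Bool} {e : E} {v : L → ℂ} {b : C6}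
    {p : L → ℂ × ℂ} (h1 : ((b, fun j => (p j).1) : E) = H95.flip S S0 e)
    (h2 : (fun j => (p j).2) = flipv S S0 e.2 v) (w : Fin 2 → C6) :
    fv Q b p w = Q S0 (H95.flip S S0 e) (flipv S S0 e.2 v) (H811.vec vb w) := by
  rw [← h1, ← h2]
  rfl

/-! ### the frame of a region -/

section Co852

variable (R : H852.Reg L (Fin 3))

/-- the frame of the chart in 852's coordinates -/
theorem fr30_eq (A : Fin 2 → Bs3 × Cd R) :
    fr30 (to95 R) (m95 R) (coL R (A 0)) (coL R (A 1)) = fun l => coL R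
      ((Sum.elim A (fun q => ((0 : Bs3), gfr R ((eqv R).symm q.1) q.2)) ∘ sgE.symm) l) := by
  rw [elim_sgE]
  unfold fr30
  funext l
  refine Fin.addCases (fun a => ?_) (fun k => ?_) (l : Fin (28 + 2))
  · rw [Fin.append_left, Fin.append_left]
    change H573.fr _ _ (mrk ⟨a / 2, by omega⟩) (decide ((a : ℕ) % 2 = 1)) = _
    rw [coL_gfr]
    congr 1
    rcases Nat.mod_two_eq_zero_or_one (a : ℕ) with h | h <;> simp [h]
  · rw [Fin.append_right, Fin.append_right]
    fin_cases k <;> rfl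

/-- `region_frame` for a form on (roots, marks) -/
theorem frame_id (η : F30) (x : Bs3 × Cd R) (A : Fin 2 → Bs3 × Cd R) :
    η (fun l => fderiv ℝ (posE (to95 R) (m95 R)) (coL R x)
      (fr30 (to95 R) (m95 R) (coL R (A 0)) (coL R (A 1)) l)) =
      R.jac (Dth x.1) (R.tau (Dth x.1) x.2.1.1 x.2.1.2) *
        η (H811.vec vb fun k => fderiv ℝ rtp x.1 (A k).1) := by
  have h := region_frame Dth x.1 x.2.1.1 x.2.1.2 x.2.2 (PsiD R x) (hasFDerivAt_PsiE R x) sgE
    (W := ℝ) (η.toAlternatingMap.compLinearMap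
      ((fderiv ℝ rtp x.1).toLinearMap.prodMap (LinearMap.id : (L → ℂ) →ₗ[ℝ] (L → ℂ))))
    (fun k => (A k).1) (fun k => (A k).2)
  rw [fr30_eq, vec_eq]
  simp only [fderiv_posE_coL]
  rw [smul_eq_mul] at h
  refine Eq.trans ?_ (h.trans ?_)
  · rw [AlternatingMap.compLinearMap_apply]
    change η _ = η _
    congr 1
    funext l
    simp only [Function.comp]
    rcases sgE.symm l with k | q
    · rfl
    · rfl
  · rw [AlternatingMap.compLinearMap_apply]
    change _ * η _ = _ * η _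
    congr 2
    funext l
    simp only [Function.comp]
    rcases sgE.symm l with k | q
    · rfl
    · refine Prod.ext ?_ rfl
      exact map_zero (fderiv ℝ rtp x.1)

theorem prod_fden (far : R.Kc → Bool) (x : Bs3 × Cd R) :
    (∏ j, if Sfar R far j = true then ‖(posE (to95 R) (m95 R) (coL R x)).2 j‖⁻¹ ^ 4 else 1) =
      fden far x.2.2 := by
  rw [← Equiv.prod_comp (eqv R), Fintype.prod_sum_type]
  have h1 : ∀ g : R.Gf, (if Sfar R far (eqv R (Sum.inl g)) = true then
      ‖(posE (to95 R) (m95 R) (coL R x)).2 (eqv R (Sum.inl g))‖⁻¹ ^ 4 else 1) = 1 := by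
    rintro ⟨k, i⟩
    rw [eqv_inl, Sfar_neck R far (R.ord k i).2]
    simp
  rw [Finset.prod_congr rfl fun g _ => h1 g, Finset.prod_const_one, one_mul]
  unfold H852.fden
  refine Finset.prod_congr rfl fun c _ => ?_
  have h2 : (posE (to95 R) (m95 R) (coL R x)).2 (eqv R (Sum.inr c)) = x.2.2 c := by
    rw [← xpos_eq, xpos_inr]
  have h3 : Sfar R far (eqv R (Sum.inr c)) = far c := by
    rw [eqv_inr]
    unfold Sfar
    rw [dif_pos c.2]
  rw [h2, h3]
  cases far c <;> rfl

theorem finv_eq (far : R.Kc → Bool) (z : R.Kc → ℂ) :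
    finv far z = fun c => H883.xof (far c) (z c) := by
  funext c
  unfold H852.finv
  cases far c <;> rfl

variable (X : Ext) (Θ : Gauge) {T : MT}

/-- degree `16 + 14` read as `28 + 2` -/
def cst (F : Alt (16 + 14) E) : F30 := F

theorem cst_comp (F : Alt (16 + 14) E) {V : Type} [NormedAddCommGroup V]
    [NormedSpace ℝ V] (D : V →L[ℝ] E) (u : Fin (16 + 14) → V) (z : Fin (28 + 2) → E)
    (h : ∀ l : Fin (16 + 14), D (u l) = z l) : F.compContinuousLinearMap D u = cst F z := by
  have h1 : (fun l => D (u l)) = z := funext h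
  rw [← h1]
  rfl

theorem cst_Qf (T : MT) (S : L → Bool) (e : E) (v : L → ℂ) :
    cst (Qf X Θ T S e v) = Qg X Θ T S e v := rfl

/-- `frame_id` for a form of degree `16 + 14` -/
theorem frame_cst (F : Alt (16 + 14) E) (x : Bs3 × Cd R) (A : Fin 2 → Bs3 × Cd R) :
    F.compContinuousLinearMap (fderiv ℝ (posE (to95 R) (m95 R)) (coL R x))
      (fr30 (to95 R) (m95 R) (coL R (A 0)) (coL R (A 1))) =
      R.jac (Dth x.1) (R.tau (Dth x.1) x.2.1.1 x.2.1.2) *
        cst F (H811.vec vb fun k => fderiv ℝ rtp x.1 (A k).1) :=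
  (cst_comp F (fderiv ℝ (posE (to95 R) (m95 R)) (coL R x))
    (fr30 (to95 R) (m95 R) (coL R (A 0)) (coL R (A 1))) _ (fun _ => rfl)).trans
    (frame_id R (cst F) x A)

theorem OmR_fr {hT : SymT T} (far : R.Kc → Bool) {x : Bs3 × Cd R}
    (hX : (posE (to95 R) (m95 R) (coL R x)).1 ∈ XX)
    (hU : emb (to95 R) (m95 R) (coL R x) ∈ H975.U0 (to95 R) (Sfar R far))
    (hv : shE (to95 R) (m95 R) (Sfar R far) (coL R x) ∈
      shSet (cf (Sfar R far) (posE (to95 R) (m95 R) (coL R x))))
    (A : Fin 2 → Bs3 × Cd R) :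
    OmR (to95 R) (m95 R) X Θ T (Sfar R far) (coL R x)
      (fr30 (to95 R) (m95 R) (coL R (A 0)) (coL R (A 1))) =
      R.jac (Dth x.1) (R.tau (Dth x.1) x.2.1.1 x.2.1.2) *
        cst (Qf X Θ T (Sfar R far) (posE (to95 R) (m95 R) (coL R x))
          (shE (to95 R) (m95 R) (Sfar R far) (coL R x)))
          (H811.vec vb fun k => fderiv ℝ rtp x.1 (A k).1) := by
  have h := OmR_eq X Θ hT (farOk_Sfar R far) hX hU hv
  rw [h]
  exact frame_cst R _ x A

theorem far_ne_zero (far : R.Kc → Bool) {x : Bs3 × Cd R} (hz : ∀ c, far c = true → x.2.2 c ≠ 0)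
    (j : L) (hj : Sfar R far j ≠ S0 j) : (posE (to95 R) (m95 R) (coL R x)).2 j ≠ 0 := by
  obtain ⟨s, rfl⟩ := (eqv R).surjective j
  rcases s with ⟨k, i⟩ | c
  · exfalso
    apply hj
    rw [eqv_inl, Sfar_neck R far (R.ord k i).2]
  · have h2 : (posE (to95 R) (m95 R) (coL R x)).2 (eqv R (Sum.inr c)) = x.2.2 c := by
      rw [← xpos_eq, xpos_inr]
    rw [h2]
    apply hz
    have h3 : Sfar R far (eqv R (Sum.inr c)) = far c := by
      rw [eqv_inr]
      unfold Sfar
      rw [dif_pos c.2]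
    rw [h3] at hj
    simpa [S0] using hj

theorem fden_inst {C : Type*} (i1 i2 : Fintype C) (far : C → Bool) (s : C → ℂ) :
    @fden C i1 far s = @fden C i2 far s := by
  rw [Subsingleton.elim i1 i2]

/-- **the pointwise identity** -/
theorem point_eq (hT : SymT T) (far : R.Kc → Bool) {x : Bs3 × Cd R}
    (hX : (posE (to95 R) (m95 R) (coL R x)).1 ∈ XX)
    (hz : ∀ c, far c = true → x.2.2 c ≠ 0)
    (hU : emb (to95 R) (m95 R) (coL R x) ∈ H975.U0 (to95 R) (Sfar R far))
    (hv : shE (to95 R) (m95 R) (Sfar R far) (coL R x) ∈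
      shSet (cf (Sfar R far) (posE (to95 R) (m95 R) (coL R x))))
    (A : Fin 2 → Bs3 × Cd R) :
    OmR (to95 R) (m95 R) X Θ T (Sfar R far) (coL R x)
      (fr30 (to95 R) (m95 R) (coL R (A 0)) (coL R (A 1))) =
      R.fjac (Dth x.1) far x.2 * fv (Qg X Θ T) (rtp x.1) (R.fpos (Dth x.1) far x.2)
        (fun k => fderiv ℝ rtp x.1 (A k).1) := by
  rw [OmR_fr R X Θ (hT := hT) far hX hU hv A, cst_Qf,
    chart_id (goodQg X Θ hT) hX (far_ne_zero R far hz) hv, prod_fden, H852.Reg.fjac, mul_assoc]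
  refine congrArg₂ (· * ·) rfl (congrArg₂ (· * ·) (fden_inst _ _ _ _) ?_)
  have h4 := pos852_flip R far x.1.1 x.1.2 x.2 hz (rtp x.1)
  rw [← finv_eq] at h4
  have e1 : ((rtp x.1, fun j => (R.fpos (Dth x.1) far x.2 j).1) : E) =
      H95.flip (Sfar R far) S0 (posE (to95 R) (m95 R) (coL R x)) := h4.1
  have e2 : (fun j => (R.fpos (Dth x.1) far x.2 j).2) =
      flipv (Sfar R far) S0 (posE (to95 R) (m95 R) (coL R x)).2
        (shE (to95 R) (m95 R) (Sfar R far) (coL R x)) := h4.2
  exact (fv_flip (Qg X Θ T) e1 e2 (fun k => fderiv ℝ rtp x.1 (A k).1)).symm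

end Co852

end Vale.Agent.P273.H793
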